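import Vale.Agent.P092.H793.KapAvg
import Vale.Agent.P092.H971.GF1

/-!
P092 (helper793), project B: the hypotheses of LEMMA K (`kap_zero`) for `SL_n` of a non-archimedean
local field, and the Haar volume.
-/

open Set Topology Filter MeasureTheory Matrix Matrix.SpecialLinearGroup

set_option linter.all false

namespace Vale.Agent.P092.H793

section haar

variable {G : Type*} [Group G] [TopologicalSpace G] [IsTopologicalGroup G] [T2Space G]
  [MeasurableSpace G] [BorelSpace G]

theorem vol_haar (μ : Measure G) [μ.IsHaarMeasure] [μ.IsMulRightInvariant] :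
    Vol fun C => μ.real C := by
  refine ⟨⟨fun C _ => measureReal_nonneg, fun C D hC hD h => ?_⟩, fun g h C hC => ?_,
    fun K hK => ?_⟩
  · exact measureReal_union h hD.2.measurableSet hC.1.measure_lt_top.ne hD.1.measure_lt_top.ne
  · have h1 : tr g h C = (fun y => g⁻¹ * (y * h⁻¹)) ⁻¹' C := by
      rw [tr_preimage]; ext y; simp [mul_assoc]
    simp only [measureReal_def, h1]
    have h2 : (fun y => g⁻¹ * (y * h⁻¹)) ⁻¹' C = (fun y => y * h⁻¹) ⁻¹' ((fun y => g⁻¹ * y) ⁻¹' C) := rfl
    rw [h2, measure_preimage_mul_right, measure_preimage_mul]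
  · have h1 : 0 < μ K := hK.2.measure_pos μ ⟨1, K.one_mem⟩
    exact ENNReal.toReal_pos h1.ne' hK.1.measure_lt_top.ne

end haar

section sl

variable {k : Type} [NontriviallyNormedField k] {N : ℕ}

theorem continuous_entry (i j : Fin N) :
    Continuous fun x : SpecialLinearGroup (Fin N) k => ‖(x : Matrix (Fin N) (Fin N) k) i j‖ :=
  ((_root_.continuous_apply j).comp (Matrix.SpecialLinearGroup.continuous_apply _ continuous_id i)).norm

theorem rec_entry (z : SpecialLinearGroup (Fin N) k) {i j : Fin N} (hij : i ≠ j)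
    (g : SpecialLinearGroup (Fin N) k)
    (hz : (((g * z * g⁻¹ : SpecialLinearGroup (Fin N) k)) : Matrix (Fin N) (Fin N) k) i j ≠ 0) :
    Rec z := by
  obtain ⟨ϖ, hϖ⟩ := NormedField.exists_one_lt_norm k
  have hϖ0 : ϖ ≠ 0 := by rintro rfl; simp at hϖ; linarith
  refine ⟨g, diag2n hij ϖ hϖ0, fun x => ‖(x : Matrix (Fin N) (Fin N) k) i j‖, ‖ϖ‖ * ‖ϖ‖, ?_,
    continuous_entry i j, ?_, norm_pos_iff.2 hz⟩
  · nlinarith
  · intro x
    have h1 : (((diag2n hij ϖ hϖ0 * x * (diag2n hij ϖ hϖ0)⁻¹ : SpecialLinearGroup (Fin N) k)) :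
        Matrix (Fin N) (Fin N) k) i j = ϖ * x i j * ϖ := by
      have hd : (((diag2n hij ϖ hϖ0)⁻¹ : SpecialLinearGroup (Fin N) k) : Matrix (Fin N) (Fin N) k) =
          Matrix.diagonal (fun l => if l = i then ϖ⁻¹ else if l = j then ϖ else 1) := by
        have e1 : (diag2n hij ϖ hϖ0)⁻¹ = diag2n hij ϖ⁻¹ (inv_ne_zero hϖ0) := by
          rw [inv_eq_iff_mul_eq_one]
          refine Subtype.ext ?_
          rw [coe_mul, diag2n_coe, diag2n_coe, Matrix.diagonal_mul_diagonal]
          refine Eq.trans ?_ (Matrix.diagonal_one (n := Fin N) (α := k))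
          congr 1
          ext l
          by_cases h1 : l = i
          · subst h1; simp [hϖ0]
          · by_cases h2 : l = j
            · subst h2; simp [hϖ0, hij.symm]
            · simp [h1, h2]
        rw [e1, diag2n_coe]
        congr 1
        ext l
        by_cases h1 : l = i
        · subst h1; simp
        · by_cases h2 : l = j
          · subst h2; simp [hij.symm]
          · simp [h1, h2]
      rw [coe_mul, coe_mul, hd, diag2n_coe, Matrix.mul_diagonal, Matrix.diagonal_mul]
      simp [hij.symm]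
    simp only [h1, norm_mul]
    ring

theorem rec_sl (z : SpecialLinearGroup (Fin N) k)
    (hz : z ∉ Subgroup.center (SpecialLinearGroup (Fin N) k)) : Rec z := by
  by_cases hoff : ∃ i j : Fin N, i ≠ j ∧ (z : Matrix (Fin N) (Fin N) k) i j ≠ 0
  · obtain ⟨i, j, hij, h⟩ := hoff
    exact rec_entry z hij 1 (by simpa using h)
  · push Not at hoff
    by_cases hd : ∃ i j : Fin N, (z : Matrix (Fin N) (Fin N) k) i i ≠ (z : Matrix (Fin N) (Fin N) k) j j
    · obtain ⟨i, j, h⟩ := hd
      have hij : i ≠ j := by rintro rfl; exact h rfl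
      refine rec_entry z hij (H971.e hij 1) ?_
      rw [H971.e_inv, coe_mul, coe_mul, H971.e_val, H971.e_val]
      have h1 : ((1 + (Matrix.single i j (1 : k) : Matrix (Fin N) (Fin N) k)) *
          (z : Matrix (Fin N) (Fin N) k) *
          (1 + (Matrix.single i j (-1 : k) : Matrix (Fin N) (Fin N) k)) : Matrix (Fin N) (Fin N) k) i j
          = z i j + z j j - z i i - z j i := by
        simp only [add_mul, mul_add, one_mul, mul_one, Matrix.add_apply]
        simp only [Matrix.single_mul_apply_same, Matrix.mul_single_apply_same, one_mul]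
        ring
      rw [h1, hoff i j hij, hoff j i hij.symm]
      intro h2
      apply h
      linear_combination -h2
    · push Not at hd
      exfalso
      apply hz
      rw [Matrix.SpecialLinearGroup.mem_center_iff]
      by_cases hN : Nonempty (Fin N)
      · obtain ⟨i₀⟩ := hN
        refine ⟨(z : Matrix (Fin N) (Fin N) k) i₀ i₀, ?_, ?_⟩
        · have h1 : (z : Matrix (Fin N) (Fin N) k) =
              Matrix.scalar (Fin N) ((z : Matrix (Fin N) (Fin N) k) i₀ i₀) := by
            ext a b
            by_cases hab : a = b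
            · subst hab; simp [hd a i₀]
            · simp [hoff a b hab, hab]
          have h2 := z.2
          rw [h1] at h2
          simpa using h2
        · ext a b
          by_cases hab : a = b
          · subst hab; simp [hd a i₀]
          · simp [hoff a b hab, hab]
      · have : IsEmpty (Fin N) := not_nonempty_iff.1 hN
        exact ⟨1, by simp, by ext a; exact (this.false a).elim⟩

end sl

section basis

variable {k : Type} [NontriviallyNormedField k] [IsUltrametricDist k] [ProperSpace k] {N : ℕ}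

instance secondCountable_sl : SecondCountableTopology (SpecialLinearGroup (Fin N) k) := by
  have h1 : SecondCountableTopology (Matrix (Fin N) (Fin N) k) :=
    inferInstanceAs (SecondCountableTopology (Fin N → Fin N → k))
  exact (isClosedEmbedding_val (n := Fin N) (R := k)).isEmbedding.secondCountableTopology

theorem near_mul {ε : ℝ} (hε : 0 ≤ ε) (hε1 : ε ≤ 1) {g h : SpecialLinearGroup (Fin N) k}
    (hg : H971.near ε g) (hh : H971.near ε h) : H971.near ε (g * h) := by
  intro i j
  have h1 : ((g * h : SpecialLinearGroup (Fin N) k) : Matrix (Fin N) (Fin N) k) i j -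
      (1 : Matrix (Fin N) (Fin N) k) i j =
      (((g : Matrix (Fin N) (Fin N) k) - 1) * ((h : Matrix (Fin N) (Fin N) k) - 1)) i j +
      (((g : Matrix (Fin N) (Fin N) k) i j - (1 : Matrix (Fin N) (Fin N) k) i j) +
      ((h : Matrix (Fin N) (Fin N) k) i j - (1 : Matrix (Fin N) (Fin N) k) i j)) := by
    rw [coe_mul]
    simp only [sub_mul, mul_sub, one_mul, mul_one, Matrix.sub_apply]
    ring
  rw [h1]
  refine (IsUltrametricDist.norm_add_le_max _ _).trans (max_le ?_ ?_)
  · rw [Matrix.mul_apply]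
    refine IsUltrametricDist.norm_sum_le_of_forall_le_of_nonneg hε fun l _ => ?_
    rw [norm_mul]
    calc ‖((g : Matrix (Fin N) (Fin N) k) - 1) i l‖ * ‖((h : Matrix (Fin N) (Fin N) k) - 1) l j‖
        ≤ ε * 1 := mul_le_mul (hg i l) ((hh l j).trans hε1) (norm_nonneg _) hε
      _ = ε := mul_one _
  · exact (IsUltrametricDist.norm_add_le_max _ _).trans (max_le (hg i j) (hh i j))

theorem near_one {ε : ℝ} (hε : 0 ≤ ε) : H971.near ε (1 : SpecialLinearGroup (Fin N) k) := by
  intro i j
  simp [hε]

theorem isOpen_near {ε : ℝ} (hε : 0 < ε) (hε1 : ε ≤ 1) :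
    IsOpen {g : SpecialLinearGroup (Fin N) k | H971.near ε g} := by
  rw [isOpen_iff_mem_nhds]
  intro g hg
  have h1 : {h : SpecialLinearGroup (Fin N) k | H971.near ε h} ∈ 𝓝 (1 : SpecialLinearGroup (Fin N) k) :=
    H971.mem_nhds_of_near hε fun _ h => h
  have h2 : ∀ᶠ x in 𝓝 g, g⁻¹ * x ∈ {h : SpecialLinearGroup (Fin N) k | H971.near ε h} := by
    have : Continuous fun x : SpecialLinearGroup (Fin N) k => g⁻¹ * x := by fun_prop
    exact this.continuousAt.eventually_mem (by simpa using h1)
  filter_upwards [h2] with x hx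
  have := near_mul hε.le hε1 hg hx
  rwa [mul_inv_cancel_left] at this

theorem isCompact_near {ε : ℝ} (hε : 0 < ε) (hε1 : ε ≤ 1) :
    IsCompact {g : SpecialLinearGroup (Fin N) k | H971.near ε g} := by
  refine (H971.isCompact_bdd (k := k) (N := N) 1).of_isClosed_subset ?_ ?_
  · have : {g : SpecialLinearGroup (Fin N) k | H971.near ε g} =
        ⋂ i, ⋂ j, {g : SpecialLinearGroup (Fin N) k | ‖(g : Matrix (Fin N) (Fin N) k) i j -
          (1 : Matrix (Fin N) (Fin N) k) i j‖ ≤ ε} := by
      ext g; simp [H971.near]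
    rw [this]
    refine isClosed_iInter fun i => isClosed_iInter fun j => isClosed_le ?_ continuous_const
    exact (((_root_.continuous_apply j).comp
      (Matrix.SpecialLinearGroup.continuous_apply _ continuous_id i)).sub continuous_const).norm
  · intro g hg i j
    have h1 : (g : Matrix (Fin N) (Fin N) k) i j = ((g : Matrix (Fin N) (Fin N) k) i j -
        (1 : Matrix (Fin N) (Fin N) k) i j) + (1 : Matrix (Fin N) (Fin N) k) i j := by ring
    rw [h1]
    refine (IsUltrametricDist.norm_add_le_max _ _).trans (max_le ((hg i j).trans hε1) ?_)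
    rw [Matrix.one_apply]
    split_ifs <;> simp

/-- The congruence subgroup. -/
def cong (ε : ℝ) (hε : 0 < ε) (hε1 : ε ≤ 1) : Subgroup (SpecialLinearGroup (Fin N) k) where
  carrier := {g | H971.near ε g}
  one_mem' := near_one hε.le
  mul_mem' := near_mul hε.le hε1
  inv_mem' := by
    -- a compact sub-semigroup containing a neighbourhood of one is a group
    intro g hg
    set S : Submonoid (SpecialLinearGroup (Fin N) k) :=
      { carrier := {g | H971.near ε g}, one_mem' := near_one hε.le, mul_mem' := near_mul hε.le hε1 }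
      with hS
    have hc : IsCompact (S : Set (SpecialLinearGroup (Fin N) k)) := isCompact_near hε hε1
    have ho : IsOpen (S : Set (SpecialLinearGroup (Fin N) k)) := isOpen_near hε hε1
    -- the powers of g cluster
    have hpow : ∀ n : ℕ, g ^ n ∈ (S : Set (SpecialLinearGroup (Fin N) k)) := fun n => S.pow_mem hg n
    obtain ⟨x, hx, φ, hφ, hlim⟩ := hc.tendsto_subseq hpow
    have h1 : Tendsto (fun n => (g ^ φ n)⁻¹ * g ^ φ (n + 1)) atTop (𝓝 (x⁻¹ * x)) :=
      (hlim.inv).mul (hlim.comp (tendsto_add_atTop_nat 1))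
    rw [inv_mul_cancel] at h1
    have h2 : ∀ᶠ n in atTop, (g ^ φ n)⁻¹ * g ^ φ (n + 1) ∈ (S : Set (SpecialLinearGroup (Fin N) k)) :=
      h1.eventually_mem (ho.mem_nhds S.one_mem)
    -- g⁻¹ = g^(m-1) * limit...
    have h3 : Tendsto (fun n => g⁻¹ * ((g ^ φ n)⁻¹ * g ^ φ (n + 1))) atTop (𝓝 (g⁻¹ * 1)) :=
      h1.const_mul g⁻¹
    rw [mul_one] at h3
    have h4 : ∀ n, g⁻¹ * ((g ^ φ n)⁻¹ * g ^ φ (n + 1)) ∈ (S : Set (SpecialLinearGroup (Fin N) k)) := by
      intro n
      have hlt : φ n + 1 ≤ φ (n + 1) := hφ (Nat.lt_succ_self n)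
      have e : g⁻¹ * ((g ^ φ n)⁻¹ * g ^ φ (n + 1)) = g ^ (φ (n + 1) - (φ n + 1)) := by
        have : g ^ φ (n + 1) = g ^ (φ n + 1) * g ^ (φ (n + 1) - (φ n + 1)) := by
          rw [← pow_add]; congr 1; omega
        rw [this, pow_succ]
        group
      rw [e]
      exact hpow _
    exact hc.isClosed.mem_of_tendsto h3 (Eventually.of_forall h4)

theorem basis_sl : ∀ U ∈ 𝓝 (1 : SpecialLinearGroup (Fin N) k),
    ∃ K : Subgroup (SpecialLinearGroup (Fin N) k), CO (K : Set (SpecialLinearGroup (Fin N) k)) ∧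
      (K : Set (SpecialLinearGroup (Fin N) k)) ⊆ U := by
  intro U hU
  obtain ⟨ε, h0, h1, h⟩ := H971.exists_near hU
  exact ⟨cong ε h0 h1, ⟨isCompact_near h0 h1, isOpen_near h0 h1⟩, fun g hg => h g hg⟩

/-- LEMMA K for `SL_n` of a non-archimedean local field. -/
theorem kap_zero_sl {κ : Set (SpecialLinearGroup (Fin N) k) → Set (SpecialLinearGroup (Fin N) k) → ℝ}
    {m : Set (SpecialLinearGroup (Fin N) k) → ℝ} {M : ℝ}
    {L1 L2 : Subgroup (SpecialLinearGroup (Fin N) k)} (hκ : Kap κ m M L1 L2) (hm : Vol m)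
    (h1 : Cov L1) (h2 : Cov L2) {C D : Set (SpecialLinearGroup (Fin N) k)} (hC : CO C) (hD : CO D)
    (h : ∀ x ∈ C, ∀ y ∈ D, x⁻¹ * y ∉ Subgroup.center (SpecialLinearGroup (Fin N) k)) :
    κ C D = 0 :=
  kap_zero basis_sl hκ hm h1 h2 hC hD fun x hx y hy => rec_sl _ (h x hx y hy)

end basis

end Vale.Agent.P092.H793
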