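import Vale.Agent.P092.H793.Lat
import Vale.Agent.P092.H793.KapSL
import Vale.Agent.P092.H971.GF2
import Vale.Agent.P092.SR.Defs

/-!
P092 (helper793), [B-GLUE-FINAL]: an ICC lattice in `SL × SL` with dense projections satisfies
`SR.Irr` for the projections to the quotients by the centres.
-/

open Set Topology Filter MeasureTheory

set_option linter.all false

namespace Vale.Agent.P092.H793

open Vale.Agent.P092.H515.St

section proper

variable {G : Type*} [Group G] [TopologicalSpace G] [IsTopologicalGroup G]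

theorem proper_mk (Z : Subgroup G) (hZ : IsCompact (Z : Set G)) (C : Set (G ⧸ Z)) (hC : IsCompact C) :
    IsCompact ((QuotientGroup.mk : G → G ⧸ Z) ⁻¹' C) := by
  have h : IsProperMap (QuotientGroup.mk : G → G ⧸ Z) := by
    rw [isProperMap_iff_isClosedMap_and_compact_fibers]
    refine ⟨continuous_quotient_mk', QuotientGroup.isClosedMap_coe hZ, fun y => ?_⟩
    obtain ⟨g, rfl⟩ := QuotientGroup.mk_surjective y
    have : (QuotientGroup.mk : G → G ⧸ Z) ⁻¹' {QuotientGroup.mk g} = (fun x => g * x) '' (Z : Set G) := by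
      ext x
      simp only [mem_preimage, mem_singleton_iff, mem_image, SetLike.mem_coe]
      rw [eq_comm, QuotientGroup.eq]
      constructor
      · intro hx; exact ⟨_, hx, by group⟩
      · rintro ⟨z, hz, rfl⟩
        simpa using hz
    rw [this]
    exact hZ.image (by fun_prop)
  exact h.isCompact_preimage hC

end proper

section abs

variable {Γ A B : Type} [Group Γ] [Group A] [TopologicalSpace A] [IsTopologicalGroup A] [T2Space A]
  [SecondCountableTopology A] [LocallyCompactSpace A] [Group B] [TopologicalSpace B]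
  [IsTopologicalGroup B] [T2Space B] [SecondCountableTopology B] [LocallyCompactSpace B]

omit [T2Space A] [SecondCountableTopology A] [LocallyCompactSpace A] [SecondCountableTopology B] in
theorem snd_central {q₁ : Γ →* A} {q₂ : Γ →* B}
    (hfin : ∀ (C₁ : Set A) (C₂ : Set B), IsCompact C₁ → IsCompact C₂ →
      {g : Γ | q₁ g ∈ C₁ ∧ q₂ g ∈ C₂}.Finite)
    (cA : IsCompact (Subgroup.center A : Set A))
    (gB : ∀ g : B, ∀ W ∈ 𝓝 (1 : B), (∀ x ∈ W, g * x = x * g) → g ∈ Subgroup.center B)
    (hd : DenseRange q₂) {g : Γ} (hg : q₁ g ∈ Subgroup.center A) : q₂ g ∈ Subgroup.center B := by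
  obtain ⟨W, hW, hW1⟩ := exists_compact_mem_nhds (q₂ g)
  have hF := hfin _ W cA hW
  set S : Set B := (q₂ '' {γ : Γ | q₁ γ ∈ (Subgroup.center A : Set A) ∧ q₂ γ ∈ W}) \ {q₂ g} with hS
  have hSf : S.Finite := (hF.image _).subset diff_subset
  set W' : Set B := interior W ∩ Sᶜ with hW'
  have hW'o : IsOpen W' := isOpen_interior.inter hSf.isClosed.isOpen_compl
  have hgW : q₂ g ∈ W' := ⟨mem_interior_iff_mem_nhds.2 hW1, fun h => h.2 rfl⟩
  have huniq : ∀ γ : Γ, q₁ γ ∈ Subgroup.center A → q₂ γ ∈ W' → q₂ γ = q₂ g := by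
    intro γ h1 h2
    by_contra hne
    exact h2.2 ⟨⟨γ, ⟨h1, interior_subset h2.1⟩, rfl⟩, hne⟩
  set U : Set B := {x | x * q₂ g * x⁻¹ ∈ W'} with hU
  have hUo : IsOpen U := hW'o.preimage (by fun_prop)
  have h1U : (1 : B) ∈ U := by
    rw [hU, mem_ofPred_eq]; simpa using hgW
  have hcl : IsClosed {x : B | q₂ g * x = x * q₂ g} :=
    isClosed_eq (by fun_prop) (by fun_prop)
  refine gB _ U (hUo.mem_nhds h1U) fun x hx => ?_
  have h2 : x ∈ closure (U ∩ range q₂) := hd.open_subset_closure_inter hUo hx
  refine (closure_minimal ?_ hcl) h2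
  rintro _ ⟨hy, δ, rfl⟩
  rw [hU, mem_ofPred_eq] at hy
  have h3 : q₁ (δ * g * δ⁻¹) ∈ Subgroup.center A := by
    rw [map_mul, map_mul, map_inv]
    have := (Subgroup.mem_center_iff.1 hg) (q₁ δ)
    rw [this, mul_inv_cancel_right]
    exact hg
  have h4 := huniq _ h3 (by rw [map_mul, map_mul, map_inv]; exact hy)
  rw [map_mul, map_mul, map_inv, mul_inv_eq_iff_eq_mul] at h4
  exact h4.symm

/-- `SR.Irr` for the projections to the quotients by the centres. -/
theorem irr_abs (q₁ : Γ →* A) (q₂ : Γ →* B) (hΓ : IsLattice (q₁.prod q₂).range)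
    (hinj : Function.Injective (q₁.prod q₂)) (hd₁ : DenseRange q₁) (hd₂ : DenseRange q₂)
    (hicc : ∀ g : Γ, g ≠ 1 → Set.Infinite {y : Γ | ∃ h, y = h * g * h⁻¹})
    (cA : IsCompact (Subgroup.center A : Set A)) (cB : IsCompact (Subgroup.center B : Set B))
    (gA : ∀ g : A, ∀ W ∈ 𝓝 (1 : A), (∀ x ∈ W, g * x = x * g) → g ∈ Subgroup.center A)
    (gB : ∀ g : B, ∀ W ∈ 𝓝 (1 : B), (∀ x ∈ W, g * x = x * g) → g ∈ Subgroup.center B) :
    SR.Irr ((QuotientGroup.mk' (Subgroup.center A)).comp q₁)
      ((QuotientGroup.mk' (Subgroup.center B)).comp q₂) := by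
  have hdisc : DiscreteTopology (q₁.prod q₂).range := hΓ.disc
  have hfin : ∀ (C₁ : Set A) (C₂ : Set B), IsCompact C₁ → IsCompact C₂ →
      {g : Γ | q₁ g ∈ C₁ ∧ q₂ g ∈ C₂}.Finite := by
    intro C₁ C₂ h1 h2
    have h3 := H790.finite_inter (q₁.prod q₂).range (h1.prod h2)
    have h4 : Function.Injective (q₁.prod q₂).rangeRestrict := by
      intro a b hab
      exact hinj (congrArg Subtype.val hab)
    refine (h3.preimage h4.injOn).subset ?_
    intro g hg
    exact hg
  have hfin' : ∀ (C₂ : Set B) (C₁ : Set A), IsCompact C₂ → IsCompact C₁ →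
      {g : Γ | q₂ g ∈ C₂ ∧ q₁ g ∈ C₁}.Finite := by
    intro C₂ C₁ h2 h1
    refine (hfin C₁ C₂ h1 h2).subset ?_
    rintro g ⟨a, b⟩
    exact ⟨b, a⟩
  have hcen : ∀ g : Γ, q₁ g ∈ Subgroup.center A → q₂ g ∈ Subgroup.center B → g = 1 := by
    intro g h1 h2
    by_contra hne
    refine hicc g hne ?_
    refine (Set.finite_singleton g).subset ?_
    rintro y ⟨h, rfl⟩
    rw [mem_singleton_iff]
    apply hinj
    have e1 := (Subgroup.mem_center_iff.1 h1) (q₁ h)
    have e2 := (Subgroup.mem_center_iff.1 h2) (q₂ h)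
    refine Prod.ext ?_ ?_
    · change q₁ (h * g * h⁻¹) = q₁ g
      rw [map_mul, map_mul, map_inv, e1, mul_inv_cancel_right]
    · change q₂ (h * g * h⁻¹) = q₂ g
      rw [map_mul, map_mul, map_inv, e2, mul_inv_cancel_right]
  have hcnt : Countable Γ := by
    have : Countable (q₁.prod q₂).range := H790.countable_of_discrete _
    have h4 : Function.Injective (q₁.prod q₂).rangeRestrict := by
      intro a b hab
      exact hinj (congrArg Subtype.val hab)
    exact h4.countable
  -- the swapped lattice
  have hswap : IsLattice (q₂.prod q₁).range := by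
    have hcont : Continuous (MulEquiv.prodComm : A × B ≃* B × A).toMonoidHom := continuous_swap
    have hm : (q₁.prod q₂).range.map (MulEquiv.prodComm : A × B ≃* B × A).toMonoidHom =
        (q₂.prod q₁).range := by
      ext x
      constructor
      · rintro ⟨y, ⟨g, rfl⟩, rfl⟩
        exact ⟨g, rfl⟩
      · rintro ⟨g, rfl⟩
        exact ⟨_, ⟨g, rfl⟩, rfl⟩
    have hd' : DiscreteTopology ((q₁.prod q₂).range.map
        (MulEquiv.prodComm : A × B ≃* B × A).toMonoidHom) := by
      refine discrete_map _ (fun C hC => ?_) _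
      have : ((MulEquiv.prodComm : A × B ≃* B × A).toMonoidHom : A × B → B × A) ⁻¹' C =
          (fun x : B × A => x.swap) '' C := by
        ext x
        constructor
        · intro hx; exact ⟨_, hx, by simp⟩
        · rintro ⟨y, hy, rfl⟩; simpa using hy
      rw [this]
      exact hC.image continuous_swap
    rw [← hm]
    exact lattice_map _ hcont (MulEquiv.prodComm : A × B ≃* B × A).surjective hΓ hd'
  have hcA : IsClosed (Subgroup.center A : Set A) := cA.isClosed
  have hcB : IsClosed (Subgroup.center B : Set B) := cB.isClosed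
  have hπA : ∀ C : Set (A ⧸ Subgroup.center A), IsCompact C →
      IsCompact ((QuotientGroup.mk' (Subgroup.center A)) ⁻¹' C) := fun C hC => proper_mk _ cA C hC
  have hπB : ∀ C : Set (B ⧸ Subgroup.center B), IsCompact C →
      IsCompact ((QuotientGroup.mk' (Subgroup.center B)) ⁻¹' C) := fun C hC => proper_mk _ cB C hC
  have hlat : IsLattice ((((QuotientGroup.mk' (Subgroup.center A)).comp q₁).prod
      ((QuotientGroup.mk' (Subgroup.center B)).comp q₂)).range) := by
    have hm : (q₁.prod q₂).range.map ((QuotientGroup.mk' (Subgroup.center A)).prodMap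
        (QuotientGroup.mk' (Subgroup.center B))) =
        (((QuotientGroup.mk' (Subgroup.center A)).comp q₁).prod
        ((QuotientGroup.mk' (Subgroup.center B)).comp q₂)).range := by
      ext x
      constructor
      · rintro ⟨y, ⟨g, rfl⟩, rfl⟩
        exact ⟨g, rfl⟩
      · rintro ⟨g, rfl⟩
        exact ⟨_, ⟨g, rfl⟩, rfl⟩
    have hcont : Continuous ((QuotientGroup.mk' (Subgroup.center A)).prodMap
        (QuotientGroup.mk' (Subgroup.center B))) :=
      (continuous_quotient_mk'.comp continuous_fst).prodMk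
        (continuous_quotient_mk'.comp continuous_snd)
    rw [← hm]
    refine lattice_map _ hcont ?_ hΓ (discrete_map _ (fun C hC => ?_) _)
    · rintro ⟨a, b⟩
      obtain ⟨a, rfl⟩ := QuotientGroup.mk_surjective a
      obtain ⟨b, rfl⟩ := QuotientGroup.mk_surjective b
      exact ⟨(a, b), rfl⟩
    · refine ((hπA _ (hC.image continuous_fst)).prod (hπB _ (hC.image continuous_snd))).of_isClosed_subset
        (hC.isClosed.preimage hcont) ?_
      intro x hx
      exact ⟨⟨_, hx, rfl⟩, ⟨_, hx, rfl⟩⟩
  refine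
    { countable := hcnt
      inj₁ := ?_
      inj₂ := ?_
      dense₁ := ?_
      dense₂ := ?_
      disc := ?_
      lat := hlat
      lat₁ := ?_
      lat₂ := ?_ }
  · rw [injective_iff_map_eq_one]
    intro g hg
    have h1 : q₁ g ∈ Subgroup.center A := (QuotientGroup.eq_one_iff _).1 hg
    exact hcen g h1 (snd_central hfin cA gB hd₂ h1)
  · rw [injective_iff_map_eq_one]
    intro g hg
    have h1 : q₂ g ∈ Subgroup.center B := (QuotientGroup.eq_one_iff _).1 hg
    exact hcen g (snd_central hfin' cB gA hd₁ h1) h1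
  · exact (QuotientGroup.mk'_surjective _).denseRange.comp hd₁ continuous_quotient_mk'
  · exact (QuotientGroup.mk'_surjective _).denseRange.comp hd₂ continuous_quotient_mk'
  · intro C₁ C₂ h1 h2
    exact hfin _ _ (hπA C₁ h1) (hπB C₂ h2)
  · intro K hK
    have h1 := lattice_slice q₁ q₂ hΓ (K.comap (QuotientGroup.mk' (Subgroup.center B)))
      (hπB _ hK.1) (hK.2.preimage continuous_quotient_mk')
    have hd : DiscreteTopology ((Subgroup.map q₁ (Subgroup.comap q₂
        (K.comap (QuotientGroup.mk' (Subgroup.center B))))).map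
        (QuotientGroup.mk' (Subgroup.center A))) := by
      have := h1.disc
      exact discrete_map _ hπA _
    have h2 := lattice_map (QuotientGroup.mk' (Subgroup.center A)) continuous_quotient_mk'
      (QuotientGroup.mk'_surjective _) h1 hd
    rw [Subgroup.map_map, Subgroup.comap_comap] at h2
    exact h2
  · intro K hK
    have h1 := lattice_slice q₂ q₁ hswap (K.comap (QuotientGroup.mk' (Subgroup.center A)))
      (hπA _ hK.1) (hK.2.preimage continuous_quotient_mk')
    have hd : DiscreteTopology ((Subgroup.map q₂ (Subgroup.comap q₁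
        (K.comap (QuotientGroup.mk' (Subgroup.center A))))).map
        (QuotientGroup.mk' (Subgroup.center B))) := by
      have := h1.disc
      exact discrete_map _ hπB _
    have h2 := lattice_map (QuotientGroup.mk' (Subgroup.center B)) continuous_quotient_mk'
      (QuotientGroup.mk'_surjective _) h1 hd
    rw [Subgroup.map_map, Subgroup.comap_comap] at h2
    exact h2

end abs

section sl

variable {k : Type} [NontriviallyNormedField k] [ProperSpace k] {n : Type} [Fintype n]
  [DecidableEq n]

/-- The centre of `SL_n(k)` is finite. -/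
theorem finite_center : (Subgroup.center (Matrix.SpecialLinearGroup n k) :
    Set (Matrix.SpecialLinearGroup n k)).Finite := by
  classical
  by_cases hn : Nonempty n
  · have hpos : 0 < Fintype.card n := Fintype.card_pos
    have h1 : {r : k | r ^ Fintype.card n = 1}.Finite := by
      have : {r : k | r ^ Fintype.card n = 1} ⊆ ((Polynomial.nthRoots (Fintype.card n) (1 : k)).toFinset : Set k) := by
        intro r hr
        rw [mem_ofPred_eq] at hr
        simp [Polynomial.mem_nthRoots hpos, hr]
      exact (Finset.finite_toSet _).subset this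
    obtain ⟨i₀⟩ := hn
    refine Set.Finite.of_injOn (f := fun g : Matrix.SpecialLinearGroup n k => (g : Matrix n n k) i₀ i₀)
      (t := {r : k | r ^ Fintype.card n = 1}) ?_ ?_ h1
    · intro g hg
      obtain ⟨r, hr, hg⟩ := Matrix.SpecialLinearGroup.mem_center_iff.1 hg
      have e : (g : Matrix n n k) i₀ i₀ = r := by rw [← hg]; simp
      rw [mem_ofPred_eq]
      simp only [e]
      exact hr
    · intro g hg h hh hgh
      obtain ⟨r, hr, hg⟩ := Matrix.SpecialLinearGroup.mem_center_iff.1 hg
      obtain ⟨s, hs, hh⟩ := Matrix.SpecialLinearGroup.mem_center_iff.1 hh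
      have e1 : (g : Matrix n n k) i₀ i₀ = r := by rw [← hg]; simp
      have e2 : (h : Matrix n n k) i₀ i₀ = s := by rw [← hh]; simp
      have hrs : r = s := by rw [← e1, ← e2]; exact hgh
      refine Subtype.ext ?_
      rw [← hg, ← hh, hrs]
  · have : IsEmpty n := not_nonempty_iff.1 hn
    have : Subsingleton (Matrix.SpecialLinearGroup n k) :=
      ⟨fun a b => Subtype.ext (by ext i; exact (this.false i).elim)⟩
    exact Set.toFinite _

/-- [B-GLUE-FINAL] -/
theorem irr_of_lattice {k₁ k₂ : Type} [NontriviallyNormedField k₁] [ProperSpace k₁]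
    [NontriviallyNormedField k₂] [ProperSpace k₂] {n₁ n₂ : ℕ}
    (Γ : Subgroup (Matrix.SpecialLinearGroup (Fin n₁) k₁ × Matrix.SpecialLinearGroup (Fin n₂) k₂))
    (hΓ : IsLattice Γ)
    (hd₁ : DenseRange fun g : Γ => (g : Matrix.SpecialLinearGroup (Fin n₁) k₁ ×
      Matrix.SpecialLinearGroup (Fin n₂) k₂).1)
    (hd₂ : DenseRange fun g : Γ => (g : Matrix.SpecialLinearGroup (Fin n₁) k₁ ×
      Matrix.SpecialLinearGroup (Fin n₂) k₂).2)
    (hicc : ∀ g : Γ, g ≠ 1 → Set.Infinite {y : Γ | ∃ h, y = h * g * h⁻¹}) :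
    SR.Irr ((QuotientGroup.mk' (Subgroup.center (Matrix.SpecialLinearGroup (Fin n₁) k₁))).comp
        ((MonoidHom.fst _ _).comp Γ.subtype))
      ((QuotientGroup.mk' (Subgroup.center (Matrix.SpecialLinearGroup (Fin n₂) k₂))).comp
        ((MonoidHom.snd _ _).comp Γ.subtype)) := by
  have hr : (((MonoidHom.fst (Matrix.SpecialLinearGroup (Fin n₁) k₁)
      (Matrix.SpecialLinearGroup (Fin n₂) k₂)).comp Γ.subtype).prod
      ((MonoidHom.snd _ _).comp Γ.subtype)).range = Γ := by
    ext x
    constructor
    · rintro ⟨g, rfl⟩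
      exact g.2
    · intro hx
      exact ⟨⟨x, hx⟩, rfl⟩
  have hlc : ∀ (k : Type) [NontriviallyNormedField k] [ProperSpace k] (n : ℕ),
      LocallyCompactSpace (Matrix.SpecialLinearGroup (Fin n) k) := by
    intro k _ _ n
    have : LocallyCompactSpace (Matrix (Fin n) (Fin n) k) :=
      inferInstanceAs (LocallyCompactSpace (Fin n → Fin n → k))
    exact Matrix.SpecialLinearGroup.isClosedEmbedding_val.locallyCompactSpace
  have hsc : ∀ (k : Type) [NontriviallyNormedField k] [ProperSpace k] (n : ℕ),
      SecondCountableTopology (Matrix.SpecialLinearGroup (Fin n) k) := by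
    intro k _ _ n
    have : SecondCountableTopology (Matrix (Fin n) (Fin n) k) :=
      inferInstanceAs (SecondCountableTopology (Fin n → Fin n → k))
    exact Matrix.SpecialLinearGroup.isClosedEmbedding_val.isEmbedding.secondCountableTopology
  have := hlc k₁ n₁
  have := hlc k₂ n₂
  have := hsc k₁ n₁
  have := hsc k₂ n₂
  refine irr_abs _ _ (by rw [hr]; exact hΓ) ?_ hd₁ hd₂ hicc finite_center.isCompact
    finite_center.isCompact (fun g W hW h => H971.mem_center_of_nhds hW h)
    (fun g W hW h => H971.mem_center_of_nhds hW h)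
  intro a b hab
  exact Subtype.ext hab

end sl

end Vale.Agent.P092.H793
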