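import Vale.Agent.P092.H793.Irr
import Vale.Agent.P092.SR.Blocks

/-!
P092 (helper793), [PROJ-LAT].
-/

set_option linter.all false

namespace Vale.Agent.P092.H793

/-- [PROJ-LAT] -/
theorem projLatStmt : SR.ProjLatStmt := by
  intro n₁ n₂ k₁ k₂ _ _ _ _ _ _ Γ _ _ hΓ hd₁ hd₂ hicc
  exact irr_of_lattice Γ hΓ hd₁ hd₂ hicc

end Vale.Agent.P092.H793
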