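import Vale.Agent.P092.H515.RkDef
import Vale.Agent.P092.H790.ME

/-!
P092 (helper793), [B-GLUE-FINAL]: lattices under proper surjective homomorphisms and slices of
lattices in products.
-/

open Set Topology Filter MeasureTheory

set_option linter.all false

namespace Vale.Agent.P092.H793

open Vale.Agent.P092.H515.St

/-- A subgroup with finitely many elements in a neighbourhood of the identity is discrete. -/
theorem discrete_of_finite {H : Type*} [Group H] [TopologicalSpace H] [IsTopologicalGroup H]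
    [T1Space H] (D : Subgroup H) {V : Set H} (hV : V ∈ 𝓝 (1 : H))
    (hf : ((D : Set H) ∩ V).Finite) : DiscreteTopology D := by
  rw [discreteTopology_iff_isOpen_singleton_one]
  have h1 : (((D : Set H) ∩ V) \ {1}).Finite := hf.subset diff_subset
  have h2 : IsOpen ((((D : Set H) ∩ V) \ {1})ᶜ) := h1.isClosed.isOpen_compl
  have h3 : interior V ∩ (((D : Set H) ∩ V) \ {1})ᶜ ∩ (D : Set H) = {1} := by
    ext x
    simp only [mem_inter_iff, mem_compl_iff, mem_diff, mem_singleton_iff, SetLike.mem_coe, not_and,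
      not_not]
    constructor
    · rintro ⟨⟨hx1, hx2⟩, hx3⟩
      exact hx2 ⟨hx3, interior_subset hx1⟩
    · rintro rfl
      exact ⟨⟨mem_interior_iff_mem_nhds.2 hV, fun _ => rfl⟩, D.one_mem⟩
  have h4 : ({1} : Set D) = Subtype.val ⁻¹' (interior V ∩ (((D : Set H) ∩ V) \ {1})ᶜ) := by
    ext x
    have := Set.ext_iff.1 h3 x.1
    simp only [mem_inter_iff, mem_singleton_iff, SetLike.mem_coe, x.2, and_true] at this
    simp only [mem_singleton_iff, mem_preimage, mem_inter_iff]
    rw [this]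
    exact ⟨fun h => by rw [h]; rfl, fun h => Subtype.ext h⟩
  rw [h4]
  exact (isOpen_interior.inter h2).preimage continuous_subtype_val

section inv

variable {E : Type*} [Group E] [TopologicalSpace E] [IsTopologicalGroup E]
  [SecondCountableTopology E] {L : Subgroup E} [MeasurableSpace (E ⧸ L)] [BorelSpace (E ⧸ L)]

/-- Open sets have positive measure. -/
theorem measure_open_ne_zero (ν : Measure (E ⧸ L)) (hν0 : ν ≠ 0)
    (hν : ∀ g : E, ∀ s : Set (E ⧸ L), MeasurableSet s → ν ((fun x => g • x) ⁻¹' s) = ν s)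
    {U : Set (E ⧸ L)} (hU : IsOpen U) (hne : U.Nonempty) : ν U ≠ 0 := by
  intro hU0
  apply hν0
  rw [← Measure.measure_univ_eq_zero]
  refine measure_null_of_locally_null _ fun x _ => ?_
  obtain ⟨u, hu⟩ := hne
  obtain ⟨g, rfl⟩ := QuotientGroup.mk_surjective x
  obtain ⟨g', rfl⟩ := QuotientGroup.mk_surjective u
  refine ⟨(fun x => (g' * g⁻¹) • x) ⁻¹' U, ?_, ?_⟩
  · refine mem_nhdsWithin_of_mem_nhds ?_
    refine (hU.preimage (continuous_const_smul (g' * g⁻¹))).mem_nhds ?_
    rw [mem_preimage]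
    have e : ((g' * g⁻¹) • (QuotientGroup.mk g : E ⧸ L)) = QuotientGroup.mk (g' * g⁻¹ * g) := rfl
    rw [e, inv_mul_cancel_right]; exact hu
  · rw [hν _ U hU.measurableSet]; exact hU0

end inv

section map

variable {G H : Type} [Group G] [TopologicalSpace G] [IsTopologicalGroup G] [Group H]
  [TopologicalSpace H] [IsTopologicalGroup H]

/-- The image of a lattice under a continuous surjective homomorphism is a lattice if it is
discrete. -/
theorem lattice_map (π : G →* H) (hπ : Continuous π) (hs : Function.Surjective π) {Γ : Subgroup G}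
    (hΓ : IsLattice Γ) (hd : DiscreteTopology (Γ.map π)) : IsLattice (Γ.map π) := by
  refine ⟨hd, ?_⟩
  obtain ⟨ν, h0, h1, h2⟩ := hΓ.covol
  let _ : MeasurableSpace (G ⧸ Γ) := borel _
  have : BorelSpace (G ⧸ Γ) := ⟨rfl⟩
  let _ : MeasurableSpace (H ⧸ Γ.map π) := borel _
  have : BorelSpace (H ⧸ Γ.map π) := ⟨rfl⟩
  let f : G ⧸ Γ → H ⧸ Γ.map π := Quotient.lift (fun g => (QuotientGroup.mk (π g) : H ⧸ Γ.map π)) (by
    intro a b hab
    have hab' : a⁻¹ * b ∈ Γ := by
      rwa [← QuotientGroup.leftRel_apply]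
    rw [QuotientGroup.eq, ← map_inv, ← map_mul]
    exact ⟨_, hab', rfl⟩)
  have hfmk : ∀ g : G, f (QuotientGroup.mk g) = QuotientGroup.mk (π g) := fun _ => rfl
  have hf : Continuous f := continuous_quot_lift _ (continuous_quotient_mk'.comp hπ)
  refine ⟨ν.map f, ?_, ?_, ?_⟩
  · intro h
    apply h0
    rw [← Measure.measure_univ_eq_zero]
    have := congrArg (fun m => m univ) h
    simpa [Measure.map_apply hf.measurable MeasurableSet.univ] using this
  · rw [Measure.map_apply hf.measurable MeasurableSet.univ]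
    exact h1
  · intro g s hsm
    obtain ⟨g, rfl⟩ := hs g
    have hcs : Measurable fun x : H ⧸ Γ.map π => π g • x := (continuous_const_smul (π g)).measurable
    rw [Measure.map_apply hf.measurable (hcs hsm), Measure.map_apply hf.measurable hsm,
      ← h2 g _ (hf.measurable hsm)]
    congr 1
    ext x
    obtain ⟨a, rfl⟩ := QuotientGroup.mk_surjective x
    have e1 : (g • (QuotientGroup.mk a : G ⧸ Γ)) = QuotientGroup.mk (g * a) := rfl
    have e2 : (π g • (QuotientGroup.mk (π a) : H ⧸ Γ.map π)) = QuotientGroup.mk (π g * π a) := rfl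
    simp only [mem_preimage, e1, hfmk, e2, map_mul]

/-- The image of a discrete subgroup under a proper homomorphism is discrete. -/
theorem discrete_map [T2Space G] [T1Space H] [LocallyCompactSpace H] (π : G →* H)
    (hp : ∀ C : Set H, IsCompact C → IsCompact (π ⁻¹' C)) (Γ : Subgroup G) [DiscreteTopology Γ] :
    DiscreteTopology (Γ.map π) := by
  obtain ⟨V, hV, hV1⟩ := exists_compact_mem_nhds (1 : H)
  refine discrete_of_finite _ hV1 ?_
  have h1 := H790.finite_inter Γ (hp V hV)
  refine (h1.image (fun g : Γ => π (g : G))).subset ?_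
  rintro x ⟨⟨g, hg, rfl⟩, hx⟩
  exact ⟨⟨g, hg⟩, hx, rfl⟩

end map

section slice

variable {Γ A B : Type} [Group Γ] [Group A] [TopologicalSpace A] [IsTopologicalGroup A] [T2Space A]
  [SecondCountableTopology A] [LocallyCompactSpace A] [Group B] [TopologicalSpace B]
  [IsTopologicalGroup B] [T2Space B] [SecondCountableTopology B]

/-- Slices of lattices in products by compact open subgroups are lattices. -/
theorem lattice_slice (q₁ : Γ →* A) (q₂ : Γ →* B) (hΓ : IsLattice (q₁.prod q₂).range)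
    (K : Subgroup B) (hKc : IsCompact (K : Set B)) (hKo : IsOpen (K : Set B)) :
    IsLattice ((K.comap q₂).map q₁) := by
  have hdisc : DiscreteTopology (q₁.prod q₂).range := hΓ.disc
  refine ⟨?_, ?_⟩
  · obtain ⟨V, hV, hV1⟩ := exists_compact_mem_nhds (1 : A)
    refine discrete_of_finite _ hV1 ?_
    have h1 := H790.finite_inter (q₁.prod q₂).range (hV.prod hKc)
    refine (h1.image (fun g : (q₁.prod q₂).range => (g : A × B).1)).subset ?_
    rintro x ⟨⟨g, hg, rfl⟩, hx⟩
    exact ⟨⟨_, ⟨g, rfl⟩⟩, ⟨hx, hg⟩, rfl⟩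
  set L := (q₁.prod q₂).range with hL
  set Θ := (K.comap q₂).map q₁ with hΘ
  obtain ⟨ν, h0, h1, h2⟩ := hΓ.covol
  let _ : MeasurableSpace ((A × B) ⧸ L) := borel _
  have : BorelSpace ((A × B) ⧸ L) := ⟨rfl⟩
  let _ : MeasurableSpace (A ⧸ Θ) := borel _
  have : BorelSpace (A ⧸ Θ) := ⟨rfl⟩
  set Y : Set ((A × B) ⧸ L) := QuotientGroup.mk '' (univ ×ˢ (K : Set B)) with hY
  have hYo : IsOpen Y := QuotientGroup.isOpenMap_coe _ (isOpen_univ.prod hKo)
  have hYm : ∀ x, x ∈ Y ↔ ∃ p : A × B, p.2 ∈ K ∧ (QuotientGroup.mk p : (A × B) ⧸ L) = x := by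
    intro x
    simp [hY]
  classical
  let φ : (A × B) ⧸ L → A ⧸ Θ := fun x =>
    if h : ∃ p : A × B, p.2 ∈ K ∧ (QuotientGroup.mk p : (A × B) ⧸ L) = x
      then QuotientGroup.mk h.choose.1 else QuotientGroup.mk 1
  have hφ : ∀ p : A × B, p.2 ∈ K → φ (QuotientGroup.mk p) = QuotientGroup.mk p.1 := by
    intro p hp
    have hex : ∃ p' : A × B, p'.2 ∈ K ∧ (QuotientGroup.mk p' : (A × B) ⧸ L) = QuotientGroup.mk p :=
      ⟨p, hp, rfl⟩
    have : φ (QuotientGroup.mk p) = QuotientGroup.mk hex.choose.1 := dif_pos hex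
    rw [this]
    obtain ⟨h3, h4⟩ := hex.choose_spec
    set p' := hex.choose
    rw [QuotientGroup.eq] at h4 ⊢
    obtain ⟨g, hg⟩ := h4
    have hg1 : q₁ g = p'.1⁻¹ * p.1 := congrArg Prod.fst hg
    have hg2 : q₂ g = p'.2⁻¹ * p.2 := congrArg Prod.snd hg
    refine ⟨g, ?_, hg1⟩
    change q₂ g ∈ K
    rw [hg2]
    exact K.mul_mem (K.inv_mem h3) hp
  have hφo : ∀ s : Set (A ⧸ Θ), IsOpen s → IsOpen (φ ⁻¹' s ∩ Y) := by
    intro s hs
    have : φ ⁻¹' s ∩ Y = QuotientGroup.mk '' {p : A × B | (QuotientGroup.mk p.1 : A ⧸ Θ) ∈ s ∧ p.2 ∈ K} := by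
      ext x
      constructor
      · rintro ⟨hx1, hx2⟩
        obtain ⟨p, hp, rfl⟩ := (hYm x).1 hx2
        rw [mem_preimage, hφ p hp] at hx1
        exact ⟨p, ⟨hx1, hp⟩, rfl⟩
      · rintro ⟨p, ⟨hp1, hp2⟩, rfl⟩
        refine ⟨?_, (hYm _).2 ⟨p, hp2, rfl⟩⟩
        rw [mem_preimage, hφ p hp2]; exact hp1
    rw [this]
    refine QuotientGroup.isOpenMap_coe _ ?_
    exact (hs.preimage (continuous_quotient_mk'.comp continuous_fst)).inter
      (hKo.preimage continuous_snd)
  have hφY : ∀ x, x ∉ Y → φ x = QuotientGroup.mk 1 := by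
    intro x hx
    exact dif_neg fun h => hx ((hYm x).2 h)
  have hφm : Measurable φ := by
    refine measurable_of_isOpen fun s hs => ?_
    by_cases h1s : (QuotientGroup.mk 1 : A ⧸ Θ) ∈ s
    · have : φ ⁻¹' s = (φ ⁻¹' s ∩ Y) ∪ Yᶜ := by
        ext x
        by_cases hx : x ∈ Y
        · simp [hx]
        · simp [hx, hφY x hx, h1s]
      rw [this]
      exact (hφo s hs).measurableSet.union hYo.measurableSet.compl
    · have : φ ⁻¹' s = (φ ⁻¹' s ∩ Y) := by
        ext x
        by_cases hx : x ∈ Y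
        · simp [hx]
        · simp [hx, hφY x hx, h1s]
      rw [this]
      exact (hφo s hs).measurableSet
  have key : ∀ s, MeasurableSet s → ((ν.restrict Y).map φ) s = ν (φ ⁻¹' s ∩ Y) := by
    intro s hs
    rw [Measure.map_apply hφm hs, Measure.restrict_apply (hφm hs)]
  refine ⟨(ν.restrict Y).map φ, ?_, ?_, ?_⟩
  · intro h
    have h3 : ((ν.restrict Y).map φ) univ = 0 := by rw [h]; simp
    rw [key _ MeasurableSet.univ, preimage_univ, univ_inter] at h3
    refine measure_open_ne_zero ν h0 h2 hYo ?_ h3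
    exact ⟨_, (hYm _).2 ⟨1, K.one_mem, rfl⟩⟩
  · rw [key _ MeasurableSet.univ, preimage_univ, univ_inter]
    exact lt_of_le_of_lt (measure_mono (subset_univ _)) h1
  · intro g s hs
    have hcs : Measurable fun x : A ⧸ Θ => g • x := (continuous_const_smul g).measurable
    rw [key _ (hcs hs), key _ hs, ← h2 (g, 1) _ ((hφm hs).inter hYo.measurableSet)]
    congr 1
    ext x
    have hYg : ∀ x, (g, (1 : B)) • x ∈ Y ↔ x ∈ Y := by
      intro x
      obtain ⟨p, rfl⟩ := QuotientGroup.mk_surjective x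
      have e1 : ((g, (1 : B)) • (QuotientGroup.mk p : (A × B) ⧸ L)) =
        QuotientGroup.mk ((g, 1) * p) := rfl
      rw [e1, hYm, hYm]
      constructor
      · rintro ⟨r, hr, hr'⟩
        refine ⟨(g⁻¹, 1) * r, by simpa using hr, ?_⟩
        rw [QuotientGroup.eq] at hr' ⊢
        have : ((g⁻¹, (1 : B)) * r)⁻¹ * p = r⁻¹ * ((g, 1) * p) := by
          ext <;> simp [mul_assoc]
        rw [this]; exact hr'
      · rintro ⟨r, hr, hr'⟩
        refine ⟨(g, 1) * r, by simpa using hr, ?_⟩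
        rw [QuotientGroup.eq] at hr' ⊢
        have : ((g, (1 : B)) * r)⁻¹ * ((g, 1) * p) = r⁻¹ * p := by
          ext <;> simp [mul_assoc]
        rw [this]; exact hr'
    simp only [mem_inter_iff, mem_preimage, hYg]
    refine and_congr_left fun hx => ?_
    obtain ⟨p, hp, rfl⟩ := (hYm x).1 hx
    have e1 : ((g, (1 : B)) • (QuotientGroup.mk p : (A × B) ⧸ L)) =
        QuotientGroup.mk ((g, 1) * p) := rfl
    rw [e1, hφ p hp, hφ ((g, 1) * p) (by simpa using hp)]
    rfl

end slice

end Vale.Agent.P092.H793
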