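import Vale.Agent.P092.H218.Loc

/-!
P092, TEAM D (helper793), cross-leg step of helper356 (#5696), part (A), abstract form.

`E : C(X, ℂ) →⋆ₐ B(K)` is dominated by cut-offs `c i A` (projections, `A ⊆ X`) along a filter.
Then every `E f` is a strong limit of operators in the algebra of the cut-offs; so two calculi
with commuting cut-offs commute.
-/

set_option linter.all false

open scoped InnerProductSpace
open Filter Topology ContinuousLinearMap

namespace Vale.Agent.P092.H793.DomA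

open Vale.Agent.P092.H218 (toC toC_apply cl tn one_ap mul_ap)

variable {I X Y K : Type*} [TopologicalSpace X] [CompactSpace X] [TopologicalSpace Y]
  [CompactSpace Y] [NormedAddCommGroup K] [InnerProductSpace ℂ K] [CompleteSpace K]

/-- The calculus `E` is dominated by the cut-offs `c`. -/
structure Dm (l : Filter I) (E : C(X, ℂ) →⋆ₐ[ℂ] (K →L[ℂ] K)) (c : I → Set X → (K →L[ℂ] K)) :
    Prop where
  adj : ∀ i A, adjoint (c i A) = c i A
  idem : ∀ i A, c i A * c i A = c i A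
  disj : ∀ A B, Disjoint (closure A) (closure B) → ∀ᶠ i in l, c i A * c i B = 0
  dom : ∀ (u : C(X, ℂ)) (A : Set X), IsOpen A → tsupport u ⊆ A → ∀ ζ : K, ∀ ε > 0,
    ∀ᶠ i in l, ‖E u ζ‖ ≤ ‖u‖ * ‖c i A ζ‖ + ε

section proj

variable {p : K →L[ℂ] K}

lemma pyth (ha : adjoint p = p) (hi : p * p = p) (ξ : K) :
    ‖ξ‖ ^ 2 = ‖p ξ‖ ^ 2 + ‖ξ - p ξ‖ ^ 2 := by
  have h0 : ⟪p ξ, ξ - p ξ⟫_ℂ = 0 := by
    have h1 : ⟪p ξ, ξ - p ξ⟫_ℂ = ⟪ξ, p (ξ - p ξ)⟫_ℂ := by
      conv_lhs => rw [← ha]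
      rw [adjoint_inner_left]
      rw [ha]
    have h2 : p (p ξ) = p ξ := by
      have := congrArg (fun T : K →L[ℂ] K => T ξ) hi
      simpa using this
    rw [h1, map_sub, h2, sub_self, inner_zero_right]
  have h2 := norm_add_sq_eq_norm_sq_add_norm_sq_of_inner_eq_zero (p ξ) (ξ - p ξ) h0
  rw [add_sub_cancel] at h2
  nlinarith [h2]

lemma norm_ap (ha : adjoint p = p) (hi : p * p = p) (ξ : K) : ‖p ξ‖ ≤ ‖ξ‖ := by
  have := pyth ha hi ξ
  refine (sq_le_sq₀ (norm_nonneg _) (norm_nonneg _)).1 ?_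
  nlinarith [sq_nonneg ‖ξ - p ξ‖]

lemma op_le (ha : adjoint p = p) (hi : p * p = p) : ‖p‖ ≤ 1 :=
  p.opNorm_le_bound zero_le_one fun ξ => by rw [one_mul]; exact norm_ap ha hi ξ

lemma near_of {ξ : K} {δ ε : ℝ} (ha : adjoint p = p) (hi : p * p = p)
    (h : ‖ξ‖ ≤ ‖p ξ‖ + δ) (hδ : 0 ≤ δ) (hε : 0 < ε) (hs : δ * (2 * ‖ξ‖) < ε ^ 2) :
    ‖ξ - p ξ‖ < ε := by
  have h1 := pyth ha hi ξ
  have h2 := norm_ap ha hi ξ
  refine (sq_lt_sq₀ (norm_nonneg _) hε.le).1 ?_
  have h3 : ‖ξ - p ξ‖ ^ 2 = (‖ξ‖ - ‖p ξ‖) * (‖ξ‖ + ‖p ξ‖) := by nlinarith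
  rw [h3]
  refine lt_of_le_of_lt ?_ hs
  refine mul_le_mul (by linarith) (by linarith) (by positivity) hδ

end proj

section one

variable [T2Space X] {l : Filter I} {E : C(X, ℂ) →⋆ₐ[ℂ] (K →L[ℂ] K)}
  {c : I → Set X → (K →L[ℂ] K)}

/-- a bump -/
lemma exists_bump {F A : Set X} (hF : IsClosed F) (hA : IsOpen A) (h : F ⊆ A) :
    ∃ u : C(X, ℂ), ‖u‖ ≤ 1 ∧ tsupport u ⊆ A ∧ ∀ x ∈ F, u x = 1 := by
  obtain ⟨V, hV, hFV, hVA⟩ := normal_exists_closure_subset hF hA h
  obtain ⟨f, h0, h1, h2⟩ := exists_continuous_zero_one_of_isClosed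
    (hV.isClosed_compl) hF (Set.disjoint_left.2 fun x hx hx' => hx (hFV hx'))
  refine ⟨toC f, ?_, ?_, fun x hx => ?_⟩
  · rw [ContinuousMap.norm_le _ zero_le_one]
    intro x
    rw [toC_apply, Complex.norm_real, Real.norm_of_nonneg (h2 x).1]
    exact (h2 x).2
  · refine (closure_mono fun x hx => ?_).trans hVA
    by_contra hc
    apply hx
    have := h0 (Set.mem_compl hc)
    rw [toC_apply, this]
    simp
  · rw [toC_apply, h1 hx]; simp

theorem Dm.near (h : Dm l E c) {χ : C(X, ℂ)} {A : Set X} (hA : IsOpen A)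
    (hχ : tsupport χ ⊆ A) (ζ : K) : Tendsto (fun i => c i A (E χ ζ)) l (𝓝 (E χ ζ)) := by
  obtain ⟨u, hu1, hu2, hu3⟩ := exists_bump (isClosed_tsupport χ) hA hχ
  set ξ := E χ ζ with hξ
  have e : E u ξ = ξ := by
    have : u * χ = χ := by
      ext x
      by_cases hx : x ∈ tsupport χ
      · rw [ContinuousMap.mul_apply, hu3 x hx, one_mul]
      · rw [ContinuousMap.mul_apply, image_eq_zero_of_notMem_tsupport hx, mul_zero]
    rw [hξ, ← mul_ap, ← map_mul, this]
  rw [Metric.tendsto_nhds]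
  intro ε hε
  have hδ : 0 < ε ^ 2 / (2 * ‖ξ‖ + 1) := by positivity
  filter_upwards [h.dom u A hA hu2 ξ _ hδ] with i hi
  rw [dist_eq_norm, norm_sub_rev]
  rw [e] at hi
  refine near_of (h.adj i A) (h.idem i A) (δ := ε ^ 2 / (2 * ‖ξ‖ + 1)) ?_ hδ.le hε ?_
  · refine hi.trans (by
      have := mul_le_mul_of_nonneg_right hu1 (norm_nonneg (c i A ξ))
      linarith)
  · rw [div_mul_eq_mul_div, div_lt_iff₀ (by positivity)]
    have : 0 < ε ^ 2 := by positivity
    nlinarith [norm_nonneg ξ]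

theorem Dm.far (h : Dm l E c) {χ : C(X, ℂ)} {A : Set X}
    (hχ : Disjoint (tsupport χ) (closure A)) (ζ : K) :
    Tendsto (fun i => c i A (E χ ζ)) l (𝓝 0) := by
  obtain ⟨B, hB, hχB, hBA⟩ := normal_exists_closure_subset (isClosed_tsupport χ)
    (isClosed_closure (s := A)).isOpen_compl
    (fun x hx hx' => Set.disjoint_left.1 hχ hx hx')
  have h1 := h.near hB hχB ζ
  have h2 : Tendsto (fun i => ‖E χ ζ - c i B (E χ ζ)‖) l (𝓝 0) := by
    have := (tendsto_const_nhds (x := E χ ζ)).sub h1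
    rw [sub_self] at this
    simpa using this.norm
  refine squeeze_zero_norm' ?_ h2
  filter_upwards [h.disj A B (Set.disjoint_left.2 fun x hx hx' => hBA hx' hx)] with i hi
  have e : c i A (E χ ζ) = c i A (E χ ζ - c i B (E χ ζ)) := by
    have : c i A (c i B (E χ ζ)) = 0 := by
      rw [← mul_ap, hi]; rfl
    rw [map_sub, this, sub_zero]
  rw [e]
  exact norm_ap (h.adj i A) (h.idem i A) _

end one

/-! ### The strong approximation -/

lemma sum_cl {y : ℝ} (h0 : 0 ≤ y) (n : ℕ) :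
    ∑ j ∈ Finset.range n, cl (y - j) = min y n := by
  induction n with
  | zero => simp [min_eq_right h0]
  | succ n ih =>
    rw [Finset.sum_range_succ, ih]
    push_cast
    rcases le_total y n with h | h
    · rw [H218.cl_of_le (by linarith), min_eq_left h, min_eq_left (by linarith), add_zero]
    · rw [min_eq_right h]
      rcases le_total y (n + 1) with h' | h'
      · rw [min_eq_left h']
        unfold H218.cl
        rw [min_eq_right (by linarith), max_eq_right (by linarith)]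
        ring
      · rw [min_eq_right h', H218.cl_of_ge (by linarith)]

section approx

variable [T2Space X] {l : Filter I} {E : C(X, ℂ) →⋆ₐ[ℂ] (K →L[ℂ] K)}
  {c : I → Set X → (K →L[ℂ] K)}

/-- steps -/
noncomputable def us (g : C(X, ℝ)) (n j : ℕ) : C(X, ℂ) :=
  toC ⟨fun x => cl (n * g x - j), H218.cl_cont.comp (by fun_prop)⟩

/-- tents -/
noncomputable def ts (g : C(X, ℝ)) (n i : ℕ) : C(X, ℂ) :=
  toC ⟨fun x => tn i (n * g x), (H218.cl_cont.comp (by fun_prop)).sub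
    (H218.cl_cont.comp (by fun_prop))⟩

lemma us_apply (g : C(X, ℝ)) (n j : ℕ) (x : X) : us g n j x = ((cl (n * g x - j) : ℝ) : ℂ) := rfl
lemma ts_apply (g : C(X, ℝ)) (n j : ℕ) (x : X) : ts g n j x = ((tn j (n * g x) : ℝ) : ℂ) := rfl

lemma sum_us {g : C(X, ℝ)} (h0 : ∀ x, 0 ≤ g x) (h1 : ∀ x, g x ≤ 1) {n : ℕ} (hn : 0 < n) :
    toC g = ((1 / n : ℝ) : ℂ) • ∑ j ∈ Finset.range n, us g n j := by
  have hn' : (0 : ℝ) < n := by exact_mod_cast hn
  ext x
  rw [ContinuousMap.smul_apply, ContinuousMap.sum_apply, toC_apply]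
  have : ∑ j ∈ Finset.range n, us g n j x = ((∑ j ∈ Finset.range n, cl (n * g x - j) : ℝ) : ℂ) := by
    push_cast; rfl
  rw [this, sum_cl (mul_nonneg hn'.le (h0 x)), min_eq_left (by nlinarith [h1 x]), smul_eq_mul,
    ← Complex.ofReal_mul]
  congr 1
  field_simp

lemma sum_ts {g : C(X, ℝ)} (h0 : ∀ x, 0 ≤ g x) (h1 : ∀ x, g x ≤ 1) {n : ℕ} (hn : 0 < n) :
    ∑ i ∈ Finset.range (n + 1), ts g n i = 1 := by
  have hn' : (0 : ℝ) < n := by exact_mod_cast hn
  ext x
  rw [ContinuousMap.sum_apply]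
  have : ∑ i ∈ Finset.range (n + 1), ts g n i x =
      ((∑ i ∈ Finset.range (n + 1), tn i (n * g x) : ℝ) : ℂ) := by
    push_cast; rfl
  rw [this, H218.sum_tn (mul_nonneg hn'.le (h0 x)) (by nlinarith [h1 x])]
  simp

lemma sum_norm_ts (E : C(X, ℂ) →⋆ₐ[ℂ] (K →L[ℂ] K)) {g : C(X, ℝ)} (h0 : ∀ x, 0 ≤ g x)
    (h1 : ∀ x, g x ≤ 1) {n : ℕ} (hn : 0 < n) (ζ : K) :
    ∑ i ∈ Finset.range (n + 1), ‖E (ts g n i) ζ‖ ≤ √(n + 1) * ‖ζ‖ := by
  have hn' : (0 : ℝ) < n := by exact_mod_cast hn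
  have h2 : ∑ i ∈ Finset.range (n + 1), ‖E (ts g n i) ζ‖ ^ 2 ≤ 1 * ‖ζ‖ ^ 2 := by
    refine H218.sum_sq_le E _ (fun i => ts g n i) zero_le_one (fun x => ?_) ζ
    have := H218.sum_tn (m := n) (mul_nonneg hn'.le (h0 x)) (by nlinarith [h1 x])
    rw [← this]
    refine Finset.sum_le_sum fun i _ => ?_
    rw [ts_apply, Complex.norm_real, Real.norm_of_nonneg (H218.tn_nonneg _ _)]
    have h3 := H218.tn_nonneg i (n * g x)
    have h4 := H218.tn_le_one i (n * g x)
    nlinarith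
  have h3 : (∑ i ∈ Finset.range (n + 1), ‖E (ts g n i) ζ‖) ^ 2 ≤ (n + 1) * ‖ζ‖ ^ 2 := by
    have := sq_sum_le_card_mul_sum_sq (s := Finset.range (n + 1)) (f := fun i => ‖E (ts g n i) ζ‖)
    rw [Finset.card_range] at this
    push_cast at this
    refine this.trans ?_
    have : (0 : ℝ) ≤ n + 1 := by positivity
    nlinarith
  have h4 : (n + 1) * ‖ζ‖ ^ 2 = (√(n + 1) * ‖ζ‖) ^ 2 := by
    rw [mul_pow, Real.sq_sqrt (by positivity)]
  rw [h4] at h3
  exact (sq_le_sq₀ (Finset.sum_nonneg fun _ _ => norm_nonneg _) (by positivity)).1 h3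

/-- the level sets -/
def lv (g : C(X, ℝ)) (n j : ℕ) : Set X := {x | (j : ℝ) + 1 / 2 < n * g x}

lemma lv_open (g : C(X, ℝ)) (n j : ℕ) : IsOpen (lv g n j) :=
  isOpen_lt continuous_const (by fun_prop)

lemma lv_closure (g : C(X, ℝ)) (n j : ℕ) : closure (lv g n j) ⊆ {x | (j : ℝ) + 1 / 2 ≤ n * g x} :=
  closure_minimal (fun x hx => le_of_lt (show (j : ℝ) + 1 / 2 < n * g x from hx))
    (isClosed_le continuous_const (by fun_prop))

lemma ts_supp (g : C(X, ℝ)) (n i : ℕ) :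
    tsupport (ts g n i) ⊆ {x | |n * g x - i| ≤ 1} := by
  refine closure_minimal (fun x hx => ?_) (isClosed_le (by fun_prop) continuous_const)
  by_contra hc
  apply hx
  rw [ts_apply, H218.tn_eq_zero (not_le.1 hc).le]
  simp

lemma us_high {g : C(X, ℝ)} {n i j : ℕ} (h : j + 2 ≤ i) : us g n j * ts g n i = ts g n i := by
  have h' : (j : ℝ) + 2 ≤ i := by exact_mod_cast h
  ext x
  rw [ContinuousMap.mul_apply, us_apply, ts_apply]
  by_cases hh : 1 ≤ |n * g x - i|
  · rw [H218.tn_eq_zero hh]; simp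
  · have := (abs_lt.1 (not_le.1 hh)).1
    rw [H218.cl_of_ge (by linarith)]; simp

lemma us_low {g : C(X, ℝ)} {n i j : ℕ} (h : i + 1 ≤ j) : us g n j * ts g n i = 0 := by
  have h' : (i : ℝ) + 1 ≤ j := by exact_mod_cast h
  ext x
  rw [ContinuousMap.mul_apply, us_apply, ts_apply]
  by_cases hh : 1 ≤ |n * g x - i|
  · rw [H218.tn_eq_zero hh]; simp
  · have := (abs_lt.1 (not_le.1 hh)).2
    rw [H218.cl_of_le (by linarith)]; simp

lemma norm_us (g : C(X, ℝ)) (n j : ℕ) : ‖us g n j‖ ≤ 1 := by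
  rw [ContinuousMap.norm_le _ zero_le_one]
  intro x
  rw [us_apply, Complex.norm_real, Real.norm_of_nonneg (H218.cl_nonneg _)]
  exact H218.cl_le_one _

theorem Dm.pair (h : Dm l E c) (g : C(X, ℝ)) (n i j : ℕ) (ζ : K) {δ : ℝ} (hδ : 0 < δ) :
    ∀ᶠ a in l, ‖E (us g n j) (E (ts g n i) ζ) - c a (lv g n j) (E (ts g n i) ζ)‖ ≤
      δ + (if i = j then 2 * ‖E (ts g n i) ζ‖ else 0) +
        (if i = j + 1 then 2 * ‖E (ts g n i) ζ‖ else 0) := by
  have triv : ∀ a, ‖E (us g n j) (E (ts g n i) ζ) - c a (lv g n j) (E (ts g n i) ζ)‖ ≤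
      2 * ‖E (ts g n i) ζ‖ := by
    intro a
    refine (norm_sub_le _ _).trans ?_
    have h1 := norm_ap (h.adj a (lv g n j)) (h.idem a (lv g n j)) (E (ts g n i) ζ)
    have h2 : ‖E (us g n j) (E (ts g n i) ζ)‖ ≤ 1 * ‖E (ts g n i) ζ‖ :=
      (le_opNorm _ _).trans (mul_le_mul_of_nonneg_right
        ((NonUnitalStarAlgHom.norm_apply_le E _).trans (norm_us g n j)) (norm_nonneg _))
    linarith
  by_cases h1 : i = j
  · refine Eventually.of_forall fun a => (triv a).trans ?_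
    rw [if_pos h1, if_neg (by omega)]
    linarith
  by_cases h2 : i = j + 1
  · refine Eventually.of_forall fun a => (triv a).trans ?_
    rw [if_neg h1, if_pos h2]
    linarith
  rw [if_neg h1, if_neg h2, add_zero, add_zero]
  rcases Nat.lt_or_ge i j with h3 | h3
  · -- low
    have e : E (us g n j) (E (ts g n i) ζ) = 0 := by
      rw [← mul_ap, ← map_mul, us_low h3, map_zero]; rfl
    have hd : Disjoint (tsupport (ts g n i)) (closure (lv g n j)) := by
      refine Set.disjoint_left.2 fun x hx hx' => ?_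
      have a1 : |n * g x - i| ≤ 1 := ts_supp g n i hx
      have a2 : (j : ℝ) + 1 / 2 ≤ n * g x := lv_closure g n j hx'
      have a3 : (i : ℝ) + 1 ≤ j := by exact_mod_cast h3
      have := (abs_le.1 a1).2
      linarith
    have := (h.far hd ζ)
    have := (Metric.tendsto_nhds.1 this) δ hδ
    filter_upwards [this] with a ha
    rw [e, zero_sub, norm_neg]
    rw [dist_zero_right] at ha
    exact ha.le
  · -- high
    have h4 : j + 2 ≤ i := by omega
    have e : E (us g n j) (E (ts g n i) ζ) = E (ts g n i) ζ := by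
      rw [← mul_ap, ← map_mul, us_high h4]
    have hs : tsupport (ts g n i) ⊆ lv g n j := by
      intro x hx
      have a1 : |n * g x - i| ≤ 1 := ts_supp g n i hx
      have a3 : (j : ℝ) + 2 ≤ i := by exact_mod_cast h4
      have := (abs_le.1 a1).1
      show (j : ℝ) + 1 / 2 < n * g x
      linarith
    have := h.near (lv_open g n j) hs ζ
    have := (Metric.tendsto_nhds.1 this) δ hδ
    filter_upwards [this] with a ha
    rw [e, norm_sub_rev, ← dist_eq_norm]
    exact ha.le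

/-- **Strong approximation** by averages of cut-offs. -/
theorem Dm.approx (h : Dm l E c) {g : C(X, ℝ)} (h0 : ∀ x, 0 ≤ g x) (h1 : ∀ x, g x ≤ 1) (ζ : K)
    {ε : ℝ} (hε : 0 < ε) : ∀ᶠ a in l, ∃ M : K →L[ℂ] K, ‖M‖ ≤ 1 ∧
      (∀ S, (∀ A, Commute S (c a A)) → Commute S M) ∧ ‖E (toC g) ζ - M ζ‖ ≤ ε := by
  -- choice of `n`
  have l1 : Tendsto (fun n : ℕ => 8 * ‖ζ‖ / √(n : ℝ)) atTop (𝓝 0) := by
    refine Tendsto.div_atTop tendsto_const_nhds ?_
    exact Real.tendsto_sqrt_atTop.comp tendsto_natCast_atTop_atTop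
  obtain ⟨n, hn1, hn2⟩ := (((Metric.tendsto_nhds.1 l1) (ε / 2) (by positivity)).and
    (eventually_gt_atTop 0)).exists
  have hn' : (0 : ℝ) < n := by exact_mod_cast hn2
  have hn1' : (1 : ℝ) ≤ n := by exact_mod_cast hn2
  rw [dist_zero_right, Real.norm_of_nonneg (by positivity)] at hn1
  set δ : ℝ := ε / (2 * (n + 1)) with hδ
  have hδ0 : 0 < δ := by positivity
  have hev : ∀ᶠ a in l, ∀ j ∈ Finset.range n, ∀ i ∈ Finset.range (n + 1),
      ‖E (us g n j) (E (ts g n i) ζ) - c a (lv g n j) (E (ts g n i) ζ)‖ ≤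
      δ + (if i = j then 2 * ‖E (ts g n i) ζ‖ else 0) +
        (if i = j + 1 then 2 * ‖E (ts g n i) ζ‖ else 0) :=
    (Filter.eventually_all_finset _).2 fun j _ => (Filter.eventually_all_finset _).2 fun i _ =>
      h.pair g n i j ζ hδ0
  filter_upwards [hev] with a ha
  refine ⟨((1 / n : ℝ) : ℂ) • ∑ j ∈ Finset.range n, c a (lv g n j), ?_, ?_, ?_⟩
  · rw [norm_smul, Complex.norm_real, Real.norm_of_nonneg (by positivity)]
    have : ‖∑ j ∈ Finset.range n, c a (lv g n j)‖ ≤ n := by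
      refine (norm_sum_le _ _).trans ?_
      refine (Finset.sum_le_sum fun j _ => op_le (h.adj a _) (h.idem a _)).trans ?_
      rw [Finset.sum_const, Finset.card_range, nsmul_eq_mul, mul_one]
    calc 1 / (n : ℝ) * ‖∑ j ∈ Finset.range n, c a (lv g n j)‖ ≤ 1 / (n : ℝ) * n :=
          mul_le_mul_of_nonneg_left this (by positivity)
      _ = 1 := by field_simp
  · intro S hS
    exact (Commute.sum_right _ _ _ fun j _ => hS _).smul_right _
  · have e1 : E (toC g) ζ - (((1 / n : ℝ) : ℂ) • ∑ j ∈ Finset.range n, c a (lv g n j)) ζ =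
        ((1 / n : ℝ) : ℂ) • ∑ j ∈ Finset.range n, ∑ i ∈ Finset.range (n + 1),
          (E (us g n j) (E (ts g n i) ζ) - c a (lv g n j) (E (ts g n i) ζ)) := by
      have eζ : ∑ i ∈ Finset.range (n + 1), E (ts g n i) ζ = ζ := by
        rw [← sum_apply, ← map_sum, sum_ts h0 h1 hn2, map_one, one_ap]
      have e2 : ∀ T : K →L[ℂ] K, ∑ i ∈ Finset.range (n + 1), T (E (ts g n i) ζ) = T ζ := by
        intro T
        rw [← map_sum, eζ]
      simp only [Finset.sum_sub_distrib, e2]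
      rw [sum_us h0 h1 hn2, map_smul, map_sum]
      simp only [smul_apply, sum_apply, smul_sub]
    rw [e1, norm_smul, Complex.norm_real, Real.norm_of_nonneg (by positivity)]
    set s : ℕ → ℝ := fun i => ‖E (ts g n i) ζ‖ with hs
    have b1 : ‖∑ j ∈ Finset.range n, ∑ i ∈ Finset.range (n + 1),
        (E (us g n j) (E (ts g n i) ζ) - c a (lv g n j) (E (ts g n i) ζ))‖ ≤
        ∑ j ∈ Finset.range n, ((n + 1) * δ + 2 * s j + 2 * s (j + 1)) := by
      refine (norm_sum_le _ _).trans (Finset.sum_le_sum fun j hj => ?_)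
      refine (norm_sum_le _ _).trans ?_
      refine (Finset.sum_le_sum fun i hi => ha j hj i hi).trans ?_
      rw [Finset.sum_add_distrib, Finset.sum_add_distrib, Finset.sum_const, Finset.card_range,
        Finset.sum_ite_eq' , Finset.sum_ite_eq', nsmul_eq_mul]
      have hj' := Finset.mem_range.1 hj
      rw [if_pos (Finset.mem_range.2 (by omega)), if_pos (Finset.mem_range.2 (by omega))]
      push_cast
      exact le_refl _
    have b2 : ∑ j ∈ Finset.range n, ((n + 1) * δ + 2 * s j + 2 * s (j + 1)) ≤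
        n * ((n + 1) * δ) + 4 * (√(n + 1) * ‖ζ‖) := by
      have c0 := sum_norm_ts E h0 h1 hn2 ζ
      have c1 : ∑ j ∈ Finset.range n, s j ≤ √(n + 1) * ‖ζ‖ := by
        refine le_trans ?_ c0
        rw [Finset.sum_range_succ]
        exact le_add_of_nonneg_right (norm_nonneg _)
      have c2 : ∑ j ∈ Finset.range n, s (j + 1) ≤ √(n + 1) * ‖ζ‖ := by
        refine le_trans ?_ c0
        rw [Finset.sum_range_succ']
        exact le_add_of_nonneg_right (norm_nonneg _)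
      rw [Finset.sum_add_distrib, Finset.sum_add_distrib, Finset.sum_const, Finset.card_range,
        ← Finset.mul_sum, ← Finset.mul_sum, nsmul_eq_mul]
      linarith
    have b3 : √((n : ℝ) + 1) ≤ 2 * √(n : ℝ) := by
      rw [Real.sqrt_le_left (by positivity), mul_pow, Real.sq_sqrt hn'.le]
      linarith
    calc 1 / (n : ℝ) * ‖∑ j ∈ Finset.range n, ∑ i ∈ Finset.range (n + 1),
        (E (us g n j) (E (ts g n i) ζ) - c a (lv g n j) (E (ts g n i) ζ))‖
        ≤ 1 / (n : ℝ) * (n * ((n + 1) * δ) + 4 * (√(n + 1) * ‖ζ‖)) :=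
          mul_le_mul_of_nonneg_left (b1.trans b2) (by positivity)
      _ ≤ 1 / (n : ℝ) * (n * ((n + 1) * δ) + 4 * (2 * √n * ‖ζ‖)) := by
          refine mul_le_mul_of_nonneg_left ?_ (by positivity)
          have := mul_le_mul_of_nonneg_right b3 (norm_nonneg ζ)
          linarith
      _ = (n + 1) * δ + 8 * ‖ζ‖ / √n := by
          have : (n : ℝ) = √n * √n := (Real.mul_self_sqrt hn'.le).symm
          have hs0 : √(n : ℝ) ≠ 0 := (Real.sqrt_pos.2 hn').ne'
          have e5 : 1 / (n : ℝ) * (4 * (2 * √n * ‖ζ‖)) = 8 * ‖ζ‖ / √n := by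
            rw [one_div, eq_div_iff hs0]
            calc (n : ℝ)⁻¹ * (4 * (2 * √n * ‖ζ‖)) * √n = (n : ℝ)⁻¹ * (√n * √n) * (8 * ‖ζ‖) := by
                  ring
              _ = 8 * ‖ζ‖ := by rw [← this, inv_mul_cancel₀ hn'.ne', one_mul]
          rw [mul_add, e5]
          congr 1
          field_simp
      _ ≤ ε / 2 + ε / 2 := by
          refine add_le_add ?_ hn1.le
          rw [hδ]
          apply le_of_eq
          field_simp
      _ = ε := by ring

end approx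

/-! ### Two calculi -/

section two

variable [T2Space X] [T2Space Y] {l : Filter I} [l.NeBot] {E : C(X, ℂ) →⋆ₐ[ℂ] (K →L[ℂ] K)}
  {F : C(Y, ℂ) →⋆ₐ[ℂ] (K →L[ℂ] K)} {c : I → Set X → (K →L[ℂ] K)}
  {d : I → Set Y → (K →L[ℂ] K)}

theorem zero_of (h : Dm l E c) (h' : Dm l F d) (hcd : ∀ i A B, Commute (c i A) (d i B))
    {g : C(Y, ℝ)} (h0 : ∀ x, 0 ≤ g x) (h1 : ∀ x, g x ≤ 1) {a b : C(X, ℂ)}
    (hab : Disjoint (tsupport a) (tsupport b)) (ζ : K) :
    E a (F (toC g) (E b ζ)) = 0 := by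
  obtain ⟨U, V, hU, hV, haU, hbV, hUV⟩ :=
    normal_separation (isClosed_tsupport a) (isClosed_tsupport b) hab
  obtain ⟨U', hU', haU', hUU'⟩ := normal_exists_closure_subset (isClosed_tsupport a) hU haU
  obtain ⟨V', hV', hbV', hVV'⟩ := normal_exists_closure_subset (isClosed_tsupport b) hV hbV
  have hd : Disjoint (closure U') (closure V') := hUV.mono hUU' hVV'
  refine ext_inner_left ℂ fun η => ?_
  rw [inner_zero_right]
  set ξ := E b ζ with hξ
  set θ := E (star a) η with hθ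
  have e0 : ⟪η, E a (F (toC g) ξ)⟫_ℂ = ⟪θ, F (toC g) ξ⟫_ℂ := by
    rw [hθ, map_star]
    exact (adjoint_inner_left (E a) (F (toC g) ξ) η).symm
  rw [e0]
  have hsa : tsupport (star a : C(X, ℂ)) ⊆ U' := by
    have hs1 : Function.support ⇑(star a : C(X, ℂ)) ⊆ Function.support ⇑a := fun x hx h2 =>
      hx (by rw [ContinuousMap.star_apply, h2, star_zero])
    exact (closure_mono hs1).trans haU'
  have n1 := h.near hU' hsa η
  have n2 := h.near hV' hbV' ζ
  rw [← hθ] at n1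
  rw [← hξ] at n2
  -- every `ε`
  have key : ∀ ε > 0, ‖⟪θ, F (toC g) ξ⟫_ℂ‖ ≤ ε * (2 * ‖θ‖ + ‖ξ‖) := by
    intro ε hε
    obtain ⟨i, hi1, hi2, hi3, M, hM1, hM2, hM3⟩ :=
      (((Metric.tendsto_nhds.1 n1) ε hε).and (((Metric.tendsto_nhds.1 n2) ε hε).and
        ((h.disj U' V' hd).and (h'.approx h0 h1 ξ hε)))).exists
    rw [dist_eq_norm, norm_sub_rev] at hi1 hi2
    have cU : Commute (c i U') M := hM2 _ fun A => hcd i U' A
    have z : ⟪c i U' θ, M (c i V' ξ)⟫_ℂ = 0 := by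
      have h2 : ⟪c i U' θ, M (c i V' ξ)⟫_ℂ = ⟪θ, c i U' (M (c i V' ξ))⟫_ℂ := by
        conv_lhs => rw [← h.adj i U']
        rw [adjoint_inner_left]
      have h3 : c i U' (M (c i V' ξ)) = M ((c i U' * c i V') ξ) := by
        have := congrArg (fun T : K →L[ℂ] K => T (c i V' ξ)) cU.eq
        simpa [mul_ap] using this
      rw [h2, h3, hi3]
      simp
    have dec : ⟪θ, F (toC g) ξ⟫_ℂ = ⟪θ, F (toC g) ξ - M ξ⟫_ℂ + ⟪θ - c i U' θ, M ξ⟫_ℂ +
        ⟪c i U' θ, M (ξ - c i V' ξ)⟫_ℂ + ⟪c i U' θ, M (c i V' ξ)⟫_ℂ := by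
      simp only [inner_sub_right, inner_sub_left, map_sub]
      ring
    rw [dec, z, add_zero]
    have hMle : ∀ v, ‖M v‖ ≤ ‖v‖ := fun v => (le_opNorm _ _).trans
      ((mul_le_mul_of_nonneg_right hM1 (norm_nonneg _)).trans (by rw [one_mul]))
    have t1 : ‖⟪θ, F (toC g) ξ - M ξ⟫_ℂ‖ ≤ ‖θ‖ * ε :=
      (norm_inner_le_norm _ _).trans (mul_le_mul_of_nonneg_left hM3 (norm_nonneg _))
    have t2 : ‖⟪θ - c i U' θ, M ξ⟫_ℂ‖ ≤ ε * ‖ξ‖ :=
      (norm_inner_le_norm _ _).trans (mul_le_mul hi1.le (hMle _) (norm_nonneg _) hε.le)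
    have t3 : ‖⟪c i U' θ, M (ξ - c i V' ξ)⟫_ℂ‖ ≤ ‖θ‖ * ε :=
      (norm_inner_le_norm _ _).trans (mul_le_mul (norm_ap (h.adj i _) (h.idem i _) _)
        ((hMle _).trans hi2.le) (norm_nonneg _) (norm_nonneg _))
    calc _ ≤ _ := norm_add_le _ _
      _ ≤ ‖θ‖ * ε + ε * ‖ξ‖ + ‖θ‖ * ε :=
        add_le_add ((norm_add_le _ _).trans (add_le_add t1 t2)) t3
      _ = _ := by ring
  have l1 : Tendsto (fun ε : ℝ => ε * (2 * ‖θ‖ + ‖ξ‖)) (𝓝[>] 0) (𝓝 (0 * (2 * ‖θ‖ + ‖ξ‖))) :=
    (tendsto_id.mul_const _).mono_left nhdsWithin_le_nhds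
  rw [zero_mul] at l1
  have := ge_of_tendsto l1 (eventually_nhdsWithin_of_forall fun ε hε => key ε hε)
  exact norm_le_zero_iff.1 this

theorem comm_unit (h : Dm l E c) (h' : Dm l F d) (hcd : ∀ i A B, Commute (c i A) (d i B))
    {g : C(Y, ℝ)} (h0 : ∀ x, 0 ≤ g x) (h1 : ∀ x, g x ≤ 1) (f : C(X, ℂ)) :
    Commute (E f) (F (toC g)) := by
  have := fun ζ => H218.loc E E (F (toC g)) ζ (fun a b hab => zero_of h h' hcd h0 h1 hab ζ) f
  show E f * F (toC g) = F (toC g) * E f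
  ext ζ
  exact (this ζ).symm

/-- **Two calculi with commuting cut-offs commute.** -/
theorem comm (h : Dm l E c) (h' : Dm l F d) (hcd : ∀ i A B, Commute (c i A) (d i B))
    (f : C(X, ℂ)) (g : C(Y, ℂ)) : Commute (E f) (F g) := by
  have real : ∀ g : C(Y, ℝ), Commute (E f) (F (toC g)) := by
    intro g
    set M : ℝ := ‖g‖ + 1 with hM
    have hM0 : 0 < M := by positivity
    set g' : C(Y, ℝ) := ⟨fun y => (g y + M) / (2 * M), by fun_prop⟩ with hg'
    have hb : ∀ y, |g y| ≤ M := fun y => by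
      have := g.norm_coe_le_norm y
      rw [Real.norm_eq_abs] at this
      linarith
    have c1 : Commute (E f) (F (toC g')) := by
      refine comm_unit h h' hcd (fun y => ?_) (fun y => ?_) f
      · have := (abs_le.1 (hb y)).1
        exact div_nonneg (by linarith) (by positivity)
      · have := (abs_le.1 (hb y)).2
        show (g y + M) / (2 * M) ≤ 1
        rw [div_le_one (by positivity)]
        linarith
    have e : toC g = ((2 * M : ℝ) : ℂ) • toC g' - (M : ℂ) • (1 : C(Y, ℂ)) := by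
      ext y
      have : g y = (2 * M) * g' y - M := by
        show g y = (2 * M) * ((g y + M) / (2 * M)) - M
        field_simp
        ring
      simp only [ContinuousMap.sub_apply, ContinuousMap.smul_apply, ContinuousMap.one_apply,
        smul_eq_mul, mul_one, toC_apply]
      rw [this]
      push_cast
      ring
    rw [e, map_sub, map_smul, map_smul, map_one]
    exact (c1.smul_right _).sub_right ((Commute.one_right _).smul_right _)
  rw [H218.eq_re_add_im g, map_add, map_smul]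
  exact (real _).add_right ((real _).smul_right _)

end two

end Vale.Agent.P092.H793.DomA
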