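import Vale.Agent.P092.H739.Mau
import Vale.Agent.P092.H761.WFixS

/-!
P092 (helper793): the Howe-Moore input `WFixS` along a Mautner sequence, in particular along the
products of the first directions of the factors of a finite product of groups `SL_n`.
-/

set_option linter.all false

open scoped InnerProductSpace Topology
open Filter Topology MeasureTheory

namespace Vale.Agent.P092.H793

open Vale.Agent.P092.H739 (Mau)
open Vale.Agent.P092.H933 (Len)
open Vale.Agent.P092.H761 (WFixS)

/-- **Howe-Moore along a Mautner sequence**: the weak limits of the translates are invariant. -/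
theorem wfixS_of_mau {H : Type} [Group H] [TopologicalSpace H] {b : ℕ → H} (h : Mau H b) :
    WFixS b := by
  intro E _ _ _ π hπ ξ
  obtain ⟨U, hU⟩ : ∃ U : Ultrafilter ℕ, (U : Filter ℕ) ≤ atTop := ⟨Ultrafilter.of atTop,
    Ultrafilter.of_le atTop⟩
  obtain ⟨w, hw⟩ := H201.exists_weak U (fun N => π (b N) ξ) ‖ξ‖
    (Eventually.of_forall fun N => (hπ.iso _ _).le)
  have h1 : ∀ g x, ‖π g x‖ = ‖x‖ := fun g x => hπ.iso g x
  have hinv : ∀ u (x y : E), ⟪x, π u y⟫_ℂ = ⟪π u⁻¹ x, y⟫_ℂ := fun u x y =>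
    hπ.inner_right u x y
  have hfix : ∀ u, Tendsto (fun N => (b N)⁻¹ * u * b N) atTop (𝓝 1) → π u w = w := by
    intro u hu
    refine ext_inner_left ℂ fun z => ?_
    have e1 : Tendsto (fun N => ⟪z, π u (π (b N) ξ)⟫_ℂ) U (𝓝 ⟪z, π u w⟫_ℂ) := by
      rw [hinv]
      exact (hw (π u⁻¹ z)).congr fun N => (hinv _ _ _).symm
    have e2 : Tendsto (fun N => ⟪z, π u (π (b N) ξ) - π (b N) ξ⟫_ℂ) U (𝓝 0) := by
      rw [tendsto_zero_iff_norm_tendsto_zero]
      have e3 : Tendsto (fun N => ‖z‖ * ‖π ((b N)⁻¹ * u * b N) ξ - ξ‖) U (𝓝 0) := by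
        have hc : Tendsto (fun g => π g ξ) (𝓝 1) (𝓝 ξ) := hπ.cont ξ
        have e4 := ((hc.comp (hu.mono_left hU)).sub_const ξ).norm.const_mul ‖z‖
        rw [sub_self, norm_zero, mul_zero] at e4
        exact e4
      refine squeeze_zero (fun N => norm_nonneg _) (fun N => ?_) e3
      refine (norm_inner_le_norm _ _).trans ?_
      have e5 : π u (π (b N) ξ) = π (b N) (π ((b N)⁻¹ * u * b N) ξ) := by
        have e7 : (π u * π (b N)) ξ = (π (b N) * π ((b N)⁻¹ * u * b N)) ξ := by
          rw [← map_mul, ← map_mul]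
          congr 2
          group
        exact e7
      rw [e5, ← map_sub, h1]
    have e8 : Tendsto (fun N => ⟪z, π u (π (b N) ξ)⟫_ℂ) U (𝓝 ⟪z, w⟫_ℂ) := by
      have e9 := e2.add (hw z)
      rw [zero_add] at e9
      refine e9.congr fun N => ?_
      rw [inner_sub_right]
      ring
    exact tendsto_nhds_unique e1 e8
  have hall := h _ (hπ.len w) fun u hu => by
    show ‖π u w - w‖ = 0
    rw [hfix u hu, sub_self, norm_zero]
  refine ⟨U, U.neBot, hU, w, fun g => ?_, fun η => hw η⟩
  have := hall g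
  rwa [norm_eq_zero, sub_eq_zero] at this

end Vale.Agent.P092.H793
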