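import Vale.Agent.P092.H793.EngR
import Vale.Agent.P092.H793.WFixPi
import Vale.Agent.P092.H761.FinT
import Vale.Agent.P092.H971.PlcSL
import Vale.Agent.P092.H962.Tr0

/-!
P092 (helper793), the block [FIN] for any finite number of factors and all amplifications.
-/

set_option linter.all false

open scoped InnerProductSpace ENNReal
open Set Filter Topology MeasureTheory ContinuousLinearMap Matrix

namespace Vale.Agent.P092.H793

open Vale.Agent.P092.H85 Vale.Agent.P092.H160 Vale.Agent.P092.H553 Vale.Agent.P092.H103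
open Vale.Agent.P092.H739 (Mau exists_piChain)
open Vale.Agent.P092.H761 (PF pf_of_tri finN_of_massS cptOpen_sl' WFixS)

section spl

variable {I : Type} [DecidableEq I] (H : I → Type) [∀ i, Group (H i)]

/-- one factor and the others -/
def spl (i : I) : H i × (∀ j : {j // j ≠ i}, H j) ≃* ∀ j, H j :=
  MulEquiv.symm { Equiv.piSplitAt i H with map_mul' := fun x y => rfl }

variable {H}

theorem spl_symm_apply (i : I) (y : ∀ j, H j) : (spl H i).symm y = (y i, fun j : {j // j ≠ i} => y j.1) := rfl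

theorem spl_apply (i : I) (x : H i × (∀ j : {j // j ≠ i}, H j)) (j : I) :
    spl H i x j = if h : j = i then h.symm.rec x.1 else x.2 ⟨j, h⟩ := rfl

theorem spl_self (i : I) (x : H i × (∀ j : {j // j ≠ i}, H j)) : spl H i x i = x.1 :=
  congrArg Prod.fst ((spl H i).symm_apply_apply x)

theorem spl_ne {i j : I} (h : j ≠ i) (x : H i × (∀ j : {j // j ≠ i}, H j)) :
    spl H i x j = x.2 ⟨j, h⟩ :=
  congrFun (congrArg Prod.snd ((spl H i).symm_apply_apply x)) ⟨j, h⟩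

theorem continuous_spl [∀ i, TopologicalSpace (H i)] (i : I) : Continuous (spl H i) := by
  refine continuous_pi fun j => ?_
  by_cases h : j = i
  · subst h
    exact continuous_fst.congr fun x => (spl_self j x).symm
  · exact (((continuous_apply (⟨j, h⟩ : {j // j ≠ i})).comp continuous_snd).congr fun x =>
      (spl_ne h x).symm)

end spl

section gen

variable {I : Type} [Fintype I] [DecidableEq I] {H : I → Type} [∀ i, Group (H i)]
  [∀ i, TopologicalSpace (H i)] [∀ i, IsTopologicalGroup (H i)] [∀ i, LocallyCompactSpace (H i)]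
  [∀ i, SecondCountableTopology (H i)] [∀ i, T2Space (H i)] [∀ i, MeasurableSpace (H i)]
  [∀ i, BorelSpace (H i)] {Γ : Subgroup (∀ i, H i)}

/-- the projections -/
abbrev pr (Γ : Subgroup (∀ i, H i)) (i : I) : Γ →* H i := (Pi.evalMonoidHom H i).comp Γ.subtype

/-- **[FIN-R]** for abstract factors. -/
theorem fin_r_gen [DiscreteTopology Γ] [MeasurableSpace ((∀ i, H i) ⧸ Γ)]
    [BorelSpace ((∀ i, H i) ⧸ Γ)] {ν : Measure ((∀ i, H i) ⧸ Γ)} [IsProbabilityMeasure ν]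
    (hν : ∀ g : ∀ i, H i, ν.map (fun x => g • x) = ν)
    {ι ι' ℋ : Type} [Fintype ι] [Fintype ι'] [NormedAddCommGroup ℋ] [InnerProductSpace ℂ ℋ]
    [CompleteSpace ℋ] {V R₁ R₂ : Γ →* (ℋ →L[ℂ] ℋ)} {ξ : ι → ℋ} {ξ' : ι' → ℋ}
    (hT : SR.Tri V R₁ R₂ ξ) (h' : PF V R₂ ξ')
    (htr : ∀ v, v ≠ 1 → ∑ k, ⟪ξ k, V v (ξ k)⟫_ℂ = 0) {m : I → ℕ}
    (C : ∀ i, H701.HChain (H i) (m i)) (hm : ∀ i, 0 < m i) (hG : ∀ i, H515.Tgt (H i) (m i))
    (hM : ∀ i, Mau (H i) ((C i).b ⟨0, hm i⟩)) (ho : ∀ i, CptOpenBasis (H i)) (i : I) :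
    ∃ j, SR.FinN (pr Γ i) (pr Γ j) V R₁ (Set.range R₂) := by
  haveI : Countable Γ := H790.countable_of_discrete Γ
  haveI : Nonempty I := ⟨i⟩
  have h := pf_of_tri hT
  obtain ⟨D, hD⟩ := exists_piChain C hm (Finset.univ.erase i)
  have hI : 0 < Fintype.card I := Fintype.card_pos
  have hcard : (Finset.univ.erase i).card < Fintype.card I := by
    rw [Finset.card_erase_of_mem (Finset.mem_univ i), Finset.card_univ]
    omega
  have hle : (Finset.univ.erase i).card ≤ ∑ j, m j := by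
    rw [Finset.card_eq_sum_ones]
    exact (Finset.sum_le_sum fun j _ => hm j).trans
      (Finset.sum_le_sum_of_subset (Finset.subset_univ _))
  have hφ : ∀ K : ∀ j, Set (H j), (∀ j, IsCompact (K j)) →
      {x : Γ | ∀ j, pr Γ j x ∈ K j}.Finite := fun K hK => by
    refine (H790.finite_inter Γ (isCompact_univ_pi hK)).subset fun x hx => ?_
    exact fun j _ => hx j
  obtain ⟨j, s, K, c, hs, hK, hc, h3⟩ := eng_r Γ ν hν h h' hT.comm₁₂ hT.adj₁ hT.adj₂ hT.adjV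
    hT.comm₁ hT.comm₂ hT.ne htr D hle hcard hG le_rfl (fun j => pr Γ j) hφ _
    (fun N => hD fun _ => N)
  obtain ⟨b, hb⟩ : ∃ b : ℕ → ∀ j : {j // j ≠ i}, H j,
      b = fun N (j : {j // j ≠ i}) => (C j.1).b ⟨0, hm j.1⟩ (s N) := ⟨_, rfl⟩
  have hw : WFixS b := by
    rw [hb]
    exact wfixS_of_mau (Mau.comp (H739.mau_pi fun j : {j // j ≠ i} => hM j) hs.tendsto_atTop)
  have he : ∀ N, (fun j => if j ∈ Finset.univ.erase i then (C j).b ⟨0, hm j⟩ (s N) else 1) =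
      spl H i (1, b N) := by
    intro N
    funext j
    by_cases hj : j = i
    · subst hj
      rw [spl_self, if_neg (Finset.notMem_erase _ _)]
    · rw [spl_ne hj, if_pos (Finset.mem_erase.2 ⟨hj, Finset.mem_univ _⟩), hb]
  refine ⟨j, finN_of_massS (Ga := H i) (Gb := ∀ j : {j // j ≠ i}, H j) hν h hT.adjV hT.adj₁
    hT.adj₂ hT.comm₁₂ hT.comm₁ hT.comm₂ hT.ne (ho i) (ho j) (spl H i) (continuous_spl i)
    (pr Γ j) hK hw hc fun N => ?_⟩
  have h4 := h3 N
  rw [← he]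
  exact h4

end gen

/-- **[FIN-R]** for lattices in finite products of groups `SL_n` over local fields (non
archimedean), for all models. -/
theorem fin_r {r : ℕ} (n : Fin r → ℕ) (k : Fin r → Type) [∀ j, NontriviallyNormedField (k j)]
    [∀ j, ProperSpace (k j)] [∀ j, IsUltrametricDist (k j)]
    (Γ : Subgroup (∀ j, SpecialLinearGroup (Fin (n j)) (k j))) (hn : ∀ j, 2 ≤ n j)
    (hL : H515.St.IsLattice Γ)
    {ι ι' ℋ : Type} [Fintype ι] [Fintype ι'] [NormedAddCommGroup ℋ] [InnerProductSpace ℂ ℋ]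
    [CompleteSpace ℋ] {V R₁ R₂ : Γ →* (ℋ →L[ℂ] ℋ)} {ξ : ι → ℋ} {ξ' : ι' → ℋ}
    (hT : SR.Tri V R₁ R₂ ξ) (hT' : SR.Tri R₁ V R₂ ξ')
    (htr : ∀ v, v ≠ 1 → ∑ k, ⟪ξ k, V v (ξ k)⟫_ℂ = 0) (i : Fin r) :
    ∃ j, SR.FinN (H971.pj Γ i) (H971.pj Γ j) V R₁ (Set.range R₂) := by
  obtain ⟨m, rfl⟩ : ∃ m : Fin r → ℕ, n = fun j => m j + 1 :=
    ⟨fun j => n j - 1, funext fun j => (Nat.sub_add_cancel (le_trans (by norm_num) (hn j))).symm⟩
  haveI hdisc : DiscreteTopology Γ := hL.disc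
  letI : MeasurableSpace ((∀ j, SpecialLinearGroup (Fin (m j + 1)) (k j)) ⧸ Γ) := borel _
  haveI : BorelSpace ((∀ j, SpecialLinearGroup (Fin (m j + 1)) (k j)) ⧸ Γ) := ⟨rfl⟩
  letI : ∀ j, MeasurableSpace (SpecialLinearGroup (Fin (m j + 1)) (k j)) := fun j => borel _
  haveI : ∀ j, BorelSpace (SpecialLinearGroup (Fin (m j + 1)) (k j)) := fun j => ⟨rfl⟩
  haveI : ∀ j, LocallyCompactSpace (SpecialLinearGroup (Fin (m j + 1)) (k j)) := fun j =>
    H303.locallyCompact_SL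
  haveI : ∀ j, SecondCountableTopology (SpecialLinearGroup (Fin (m j + 1)) (k j)) := fun j =>
    H303.secondCountable_SL
  obtain ⟨ν, hν1, hν⟩ := H515.IsLattice.exists_prob (Λ := Γ) ⟨hL.disc, hL.covol⟩
  haveI := hν1
  exact fin_r_gen hν hT (pf_of_tri hT') htr (fun j => H701.slChain (k j) (m j))
    (fun j => by have := hn j; simp only at this; omega)
    (fun j => H933.tgt_sl_loc (H933.LocK.ultra inferInstance) (m j))
    (fun j => H739.mau_sl (k j) (m j) _) (fun j => cptOpen_sl') i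

/-- The literal of the block [FIN] for `r` factors (helper962, #4295). -/
theorem fin_rt {r : ℕ} (hr : 2 ≤ r) (n : Fin r → ℕ) (k : Fin r → Type)
    [∀ j, NontriviallyNormedField (k j)] [∀ j, ProperSpace (k j)] [∀ j, IsUltrametricDist (k j)]
    (Γ : Subgroup (∀ j, SpecialLinearGroup (Fin (n j)) (k j))) (hn : ∀ j, 2 ≤ n j)
    (hL : H515.St.IsLattice Γ) (hd : ∀ j, DenseRange (H971.pj Γ j))
    (hicc : ∀ g : Γ, g ≠ 1 → Set.Infinite {y : Γ | ∃ h, y = h * g * h⁻¹})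
    {ι ι' ℋ : Type} [Fintype ι] [Fintype ι'] [NormedAddCommGroup ℋ] [InnerProductSpace ℂ ℋ]
    [CompleteSpace ℋ] (V R₁ R₂ : Γ →* (ℋ →L[ℂ] ℋ)) (ξ : ι → ℋ) (ξ' : ι' → ℋ)
    (hT : SR.Tri V R₁ R₂ ξ) (hT' : SR.Tri R₁ V R₂ ξ') (i : Fin r) :
    ∃ j, SR.FinN (H971.pj Γ i) (H971.pj Γ j) V R₁ (Set.range R₂) :=
  fin_r n k Γ hn hL hT hT' (fun v hv => H962.tr0 hicc hT hT' v hv) i

end Vale.Agent.P092.H793
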