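import Mathlib

/-!
P092 (helper793), project B, step (5)/(6) of #2956: finitely additive functions of pairs of compact
open sets, invariant under translations by lattices, vanish off the centre.
-/

open Set Topology Filter

set_option linter.unusedSectionVars false

namespace Vale.Agent.P092.H793

variable {G : Type*} [Group G] [TopologicalSpace G]

/-- Compact open subsets. -/
def CO (C : Set G) : Prop := IsCompact C ∧ IsOpen C

/-- The translate `g C h`. -/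
def tr (g h : G) (C : Set G) : Set G := (fun x => g * x * h) '' C

theorem mem_tr {g h : G} {C : Set G} {y : G} : y ∈ tr g h C ↔ g⁻¹ * y * h⁻¹ ∈ C := by
  constructor
  · rintro ⟨x, hx, rfl⟩
    have : g⁻¹ * (g * x * h) * h⁻¹ = x := by group
    simpa only [this] using hx
  · intro hy
    exact ⟨_, hy, by simp only []; group⟩

theorem tr_preimage (g h : G) (C : Set G) : tr g h C = (fun y => g⁻¹ * y * h⁻¹) ⁻¹' C := by
  ext y; exact mem_tr

theorem tr_tr (g h g' h' : G) (C : Set G) : tr g h (tr g' h' C) = tr (g * g') (h' * h) C := by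
  ext y
  simp only [mem_tr]
  have : g'⁻¹ * (g⁻¹ * y * h⁻¹) * h'⁻¹ = (g * g')⁻¹ * y * (h' * h)⁻¹ := by group
  rw [this]

theorem tr_one (C : Set G) : tr 1 1 C = C := by
  ext y; simp [mem_tr]

theorem tr_union (g h : G) (C D : Set G) : tr g h (C ∪ D) = tr g h C ∪ tr g h D :=
  image_union ..

theorem tr_disjoint {g h : G} {C D : Set G} (hd : Disjoint C D) :
    Disjoint (tr g h C) (tr g h D) := by
  rw [tr_preimage, tr_preimage]; exact hd.preimage _

theorem CO.tr [IsTopologicalGroup G] {C : Set G} (hC : CO C) (g h : G) : CO (tr g h C) := by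
  refine ⟨hC.1.image (by fun_prop), ?_⟩
  rw [tr_preimage]
  exact hC.2.preimage (by fun_prop)

theorem CO.union {C D : Set G} (hC : CO C) (hD : CO D) : CO (C ∪ D) :=
  ⟨hC.1.union hD.1, hC.2.union hD.2⟩

theorem CO.empty : CO (∅ : Set G) := ⟨isCompact_empty, isOpen_empty⟩

theorem CO.inv [IsTopologicalGroup G] {C : Set G} (hC : CO C) : CO (C⁻¹) :=
  ⟨hC.1.inv, hC.2.inv⟩

/-- Finitely additive function on the compact open sets. -/
structure Fadd (f : Set G → ℝ) : Prop where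
  nonneg : ∀ C, CO C → 0 ≤ f C
  add : ∀ C D, CO C → CO D → Disjoint C D → f (C ∪ D) = f C + f D

theorem Fadd.empty {f : Set G → ℝ} (hf : Fadd f) : f ∅ = 0 := by
  have := hf.add ∅ ∅ CO.empty CO.empty (by simp)
  simp only [union_empty] at this
  linarith

theorem Fadd.mono [T2Space G] {f : Set G → ℝ} (hf : Fadd f) {C D : Set G} (hC : CO C) (hD : CO D)
    (h : C ⊆ D) : f C ≤ f D := by
  have h1 : CO (D \ C) := ⟨hD.1.diff hC.2, hD.2.sdiff hC.1.isClosed⟩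
  have := hf.add C (D \ C) hC h1 disjoint_sdiff_right
  rw [union_sdiff_cancel h] at this
  linarith [hf.nonneg _ h1]

/-- Finite disjoint unions. -/
theorem Fadd.sum {f : Set G → ℝ} (hf : Fadd f) {ι : Type*} (s : Finset ι) (A : ι → Set G)
    (hA : ∀ i ∈ s, CO (A i)) (hd : ∀ i ∈ s, ∀ j ∈ s, i ≠ j → Disjoint (A i) (A j)) :
    CO (⋃ i ∈ s, A i) ∧ f (⋃ i ∈ s, A i) = ∑ i ∈ s, f (A i) := by
  classical
  induction s using Finset.induction_on with
  | empty => simp [hf.empty, CO.empty]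
  | insert a s ha ih =>
    have ih' := ih (fun i hi => hA i (Finset.mem_insert_of_mem hi))
      (fun i hi j hj => hd i (Finset.mem_insert_of_mem hi) j (Finset.mem_insert_of_mem hj))
    have h1 : (⋃ i ∈ insert a s, A i) = A a ∪ ⋃ i ∈ s, A i := by
      ext x; simp
    have h2 : Disjoint (A a) (⋃ i ∈ s, A i) := by
      simp only [Set.disjoint_iUnion_right]
      intro i hi
      exact hd a (Finset.mem_insert_self ..) i (Finset.mem_insert_of_mem hi)
        (fun h => ha (h ▸ hi))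
    rw [h1, Finset.sum_insert ha, ← ih'.2]
    exact ⟨(hA a (Finset.mem_insert_self ..)).union ih'.1,
      hf.add _ _ (hA a (Finset.mem_insert_self ..)) ih'.1 h2⟩

/-- A compact open set right invariant under the compact open subgroup `K` is a finite disjoint union
of cosets `x K`. -/
theorem Fadd.cosets [IsTopologicalGroup G] {f : Set G → ℝ} (hf : Fadd f) {K : Subgroup G}
    (hK : CO (K : Set G)) {C : Set G} (hC : CO C) (hCK : ∀ x ∈ C, ∀ k ∈ K, x * k ∈ C) :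
    ∃ s : Finset G, (∀ x ∈ s, x ∈ C) ∧ f C = ∑ x ∈ s, f (tr x 1 K) ∧
      ∀ f' : Set G → ℝ, Fadd f' → f' C = ∑ x ∈ s, f' (tr x 1 K) := by
  classical
  have hcov : C ⊆ ⋃ x : C, tr (x : G) 1 (K : Set G) := by
    intro x hx
    exact mem_iUnion.2 ⟨⟨x, hx⟩, by simp [mem_tr, K.one_mem]⟩
  have hop : ∀ x : C, IsOpen (tr (x : G) 1 (K : Set G)) := fun x => (hK.tr _ _).2
  obtain ⟨t, ht⟩ := hC.1.elim_finite_subcover _ hop hcov
  -- choose representatives
  set t' : Finset (G ⧸ K) := t.image (fun x : C => (QuotientGroup.mk (x : G) : G ⧸ K)) with ht'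
  have hmk : ∀ q ∈ t', ∃ x : G, x ∈ C ∧ (QuotientGroup.mk x : G ⧸ K) = q := by
    intro q hq
    obtain ⟨x, -, rfl⟩ := Finset.mem_image.1 hq
    exact ⟨x, x.2, rfl⟩
  choose! r hrC hr using hmk
  have hinj : ∀ a ∈ t', ∀ b ∈ t', r a = r b → a = b := by
    intro a ha b hb h
    rw [← hr a ha, ← hr b hb, h]
  have hC' : C = ⋃ x ∈ t'.image r, tr x 1 (K : Set G) := by
    ext y
    simp only [mem_iUnion, Finset.mem_image, exists_prop]
    constructor
    · intro hy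
      obtain ⟨x, hx, hyx⟩ : ∃ x : C, x ∈ t ∧ y ∈ tr (x : G) 1 (K : Set G) := by
        simpa using ht hy
      have hq : (QuotientGroup.mk (x : G) : G ⧸ K) ∈ t' := Finset.mem_image.2 ⟨x, hx, rfl⟩
      refine ⟨r (QuotientGroup.mk (x : G)), ⟨_, hq, rfl⟩, ?_⟩
      have h1 := hr _ hq
      rw [QuotientGroup.eq] at h1
      rw [mem_tr] at hyx ⊢
      have : (r (QuotientGroup.mk (x : G)))⁻¹ * y * 1⁻¹ =
          ((r (QuotientGroup.mk (x : G)))⁻¹ * x) * ((x : G)⁻¹ * y * 1⁻¹) := by group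
      rw [this]
      exact K.mul_mem h1 hyx
    · rintro ⟨x, ⟨q, hq, rfl⟩, hy⟩
      rw [mem_tr] at hy
      have : y = r q * ((r q)⁻¹ * y * 1⁻¹) := by group
      rw [this]
      exact hCK _ (hrC q hq) _ hy
  have hdis : ∀ i ∈ t'.image r, ∀ j ∈ t'.image r, i ≠ j →
      Disjoint (tr i 1 (K : Set G)) (tr j 1 (K : Set G)) := by
    intro i hi j hj hij
    obtain ⟨a, ha, rfl⟩ := Finset.mem_image.1 hi
    obtain ⟨b, hb, rfl⟩ := Finset.mem_image.1 hj
    rw [Set.disjoint_left]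
    intro y hy hy'
    rw [mem_tr] at hy hy'
    apply hij
    congr 1
    rw [← hr a ha, ← hr b hb, QuotientGroup.eq]
    have : (r a)⁻¹ * r b = ((r a)⁻¹ * y * 1⁻¹) * ((r b)⁻¹ * y * 1⁻¹)⁻¹ := by group
    rw [this]
    exact K.mul_mem hy (K.inv_mem hy')
  have hall : ∀ f' : Set G → ℝ, Fadd f' → f' C = ∑ x ∈ t'.image r, f' (tr x 1 K) := by
    intro f' hf'
    have := (hf'.sum (t'.image r) (fun x => tr x 1 (K : Set G)) (fun i _ => hK.tr _ _) hdis).2
    rw [← hC'] at this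
    exact this
  refine ⟨t'.image r, ?_, hall f hf, hall⟩
  intro x hx
  obtain ⟨a, ha, rfl⟩ := Finset.mem_image.1 hx
  exact hrC a ha

/-- Bi-invariant volume of compact open sets. -/
structure Vol (m : Set G → ℝ) : Prop where
  fadd : Fadd m
  inv : ∀ g h C, CO C → m (tr g h C) = m C
  pos : ∀ K : Subgroup G, CO (K : Set G) → 0 < m K

/-- Biadditive function of pairs of compact open sets, `κ (g C h, g D h) = κ (C, D)` for `g ∈ L1`,
`h ∈ L2`, `κ (C, D) ≤ N m (C)`. -/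
structure Kap (κ : Set G → Set G → ℝ) (m : Set G → ℝ) (N : ℝ) (L1 L2 : Subgroup G) : Prop where
  left : ∀ D, CO D → Fadd fun C => κ C D
  right : ∀ C, CO C → Fadd fun D => κ C D
  le : ∀ C D, CO C → CO D → κ C D ≤ N * m C
  inv : ∀ g ∈ L1, ∀ h ∈ L2, ∀ C D, CO C → CO D → κ (tr g h C) (tr g h D) = κ C D

section rec

variable [IsTopologicalGroup G] [T2Space G] {κ : Set G → Set G → ℝ} {m : Set G → ℝ} {N : ℝ}

theorem tr_eq_self {K : Subgroup G} {B : Set G} (hKB : ∀ k ∈ K, ∀ b ∈ B, k * b ∈ B) {x : G}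
    (hx : x ∈ K) : tr x 1 B = B := by
  ext y
  rw [mem_tr]
  constructor
  · intro h
    have := hKB x hx _ h
    have e : x * (x⁻¹ * y * 1⁻¹) = y := by group
    rwa [e] at this
  · intro h
    have := hKB x⁻¹ (K.inv_mem hx) _ h
    have e : x⁻¹ * y * 1⁻¹ = x⁻¹ * y := by group
    rwa [e]

theorem ratio (hκ : Kap κ m N ⊤ ⊤) (hm : Vol m) {K K' : Subgroup G} (hK : CO (K : Set G))
    (hK' : CO (K' : Set G)) (hle : K' ≤ K) {B : Set G} (hB : CO B)
    (hKB : ∀ k ∈ K, ∀ b ∈ B, k * b ∈ B) : κ K B * m K' = κ K' B * m K := by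
  obtain ⟨s, hs, h1, h2⟩ := (hκ.left B hB).cosets hK' hK (fun x hx k hk => K.mul_mem hx (hle hk))
  have h3 := h2 m hm.fadd
  have e1 : ∀ x ∈ s, κ (tr x 1 (K' : Set G)) B = κ K' B := by
    intro x hx
    have := hκ.inv x trivial 1 trivial K' B hK' hB
    rwa [tr_eq_self hKB (hs x hx)] at this
  have e2 : ∀ x ∈ s, m (tr x 1 (K' : Set G)) = m K' := fun x _ => hm.inv _ _ _ hK'
  have h1' : κ (K : Set G) B = ∑ x ∈ s, κ (tr x 1 (K' : Set G)) B := h1
  rw [h1', h3, Finset.sum_congr rfl e1, Finset.sum_congr rfl e2]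
  simp only [Finset.sum_const, nsmul_eq_mul]
  ring

/-- The conjugate subgroup. -/
def cj (g : G) (K : Subgroup G) : Subgroup G := K.map (MulAut.conj g).toMonoidHom

theorem cj_coe (g : G) (K : Subgroup G) : ((cj g K : Subgroup G) : Set G) = tr g g⁻¹ (K : Set G) := by
  ext y
  rw [mem_tr]
  constructor
  · rintro ⟨x, hx, rfl⟩
    have : g⁻¹ * (g * x * g⁻¹) * g⁻¹⁻¹ = x := by group
    change g⁻¹ * (g * x * g⁻¹) * g⁻¹⁻¹ ∈ (K : Set G)
    rw [this]; exact hx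
  · intro h
    refine ⟨_, h, ?_⟩
    change g * (g⁻¹ * y * g⁻¹⁻¹) * g⁻¹ = y
    group

theorem exists_inf (F : ℕ → Subgroup G) (hF : ∀ l, CO (F l : Set G)) (L : ℕ) :
    ∃ K' : Subgroup G, CO (K' : Set G) ∧ ∀ l ≤ L, K' ≤ F l := by
  induction L with
  | zero => exact ⟨F 0, hF 0, fun l hl => by rw [Nat.le_zero.1 hl]⟩
  | succ L ih =>
    obtain ⟨K', h1, h2⟩ := ih
    refine ⟨K' ⊓ F (L + 1), ⟨?_, ?_⟩, ?_⟩
    · rw [Subgroup.coe_inf]
      exact h1.1.inter_right (hF _).1.isClosed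
    · rw [Subgroup.coe_inf]
      exact h1.2.inter (hF _).2
    · intro l hl
      rcases Nat.lt_or_ge L l with h | h
      · have : l = L + 1 := by omega
        subst this
        exact inf_le_right
      · exact inf_le_left.trans (h2 l h)

/-- Recurrence. -/
theorem rec_zero (hκ : Kap κ m N ⊤ ⊤) (hm : Vol m) {K : Subgroup G} (hK : CO (K : Set G))
    {B : Set G} (hB : CO B) (hKB : ∀ k ∈ K, ∀ b ∈ B, k * b ∈ B) (a : G) (ℓ : G → ℝ) {c : ℝ}
    (hc : 1 < c) (hℓ : ∀ x, ℓ (a * x * a⁻¹) = c * ℓ x) {s : ℝ} (hs : 0 < s)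
    (hsB : ∀ x ∈ B, s < ℓ x ∧ ℓ x < c * s) : κ K B = 0 := by
  have hℓ' : ∀ (l : ℕ) x, ℓ (a ^ l * x * (a ^ l)⁻¹) = c ^ l * ℓ x := by
    intro l
    induction l with
    | zero => intro x; simp
    | succ l ih =>
      intro x
      have : a ^ (l + 1) * x * (a ^ (l + 1))⁻¹ = a * (a ^ l * x * (a ^ l)⁻¹) * a⁻¹ := by
        rw [pow_succ']; group
      rw [this, hℓ, ih, pow_succ]; ring
  set F : ℕ → Subgroup G := fun l => cj (a ^ l) K with hF
  set Bl : ℕ → Set G := fun l => tr (a ^ l) (a ^ l)⁻¹ B with hBl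
  have hFc : ∀ l, CO (F l : Set G) := fun l => by
    rw [hF]; simp only []; rw [cj_coe]; exact hK.tr _ _
  have hBc : ∀ l, CO (Bl l) := fun l => hB.tr _ _
  have hval : ∀ l, ∀ x ∈ Bl l, c ^ l * s < ℓ x ∧ ℓ x < c ^ (l + 1) * s := by
    rintro l x ⟨y, hy, rfl⟩
    simp only [hℓ']
    have hcl : 0 < c ^ l := by positivity
    refine ⟨by nlinarith [(hsB y hy).1], ?_⟩
    rw [pow_succ]
    nlinarith [(hsB y hy).2]
  have hdis : ∀ i j : ℕ, i < j → Disjoint (Bl i) (Bl j) := by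
    intro i j hij
    rw [Set.disjoint_left]
    intro x hx hx'
    have h1 := (hval i x hx).2
    have h2 := (hval j x hx').1
    have h3 : c ^ (i + 1) ≤ c ^ j := pow_le_pow_right₀ hc.le hij
    nlinarith
  have key : ∀ L : ℕ, ((L : ℝ) + 1) * κ K B ≤ N * m K := by
    intro L
    obtain ⟨K', hK', hle⟩ := exists_inf F hFc L
    have h1 : ∀ l ∈ Finset.range (L + 1), κ K' (Bl l) * m K = κ K B * m K' := by
      intro l hl
      have hl' : l ≤ L := by simpa [Nat.lt_succ_iff] using hl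
      have hinv : ∀ k ∈ F l, ∀ b ∈ Bl l, k * b ∈ Bl l := by
        rintro k ⟨k', hk', rfl⟩ b ⟨b', hb', rfl⟩
        refine ⟨k' * b', hKB k' hk' b' hb', ?_⟩
        change a ^ l * (k' * b') * (a ^ l)⁻¹ = a ^ l * k' * (a ^ l)⁻¹ * (a ^ l * b' * (a ^ l)⁻¹)
        group
      have := ratio hκ hm (hFc l) hK' (hle l hl') (hBc l) hinv
      have e1 : κ (F l : Set G) (Bl l) = κ K B := by
        rw [hF]; simp only []; rw [cj_coe]
        exact hκ.inv _ trivial _ trivial K B hK hB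
      have e2 : m (F l : Set G) = m K := by
        rw [hF]; simp only []; rw [cj_coe]
        exact hm.inv _ _ _ hK
      rw [e1, e2] at this
      exact this.symm
    have h2 := (hκ.right K' hK').sum (Finset.range (L + 1)) Bl (fun i _ => hBc i)
      (fun i _ j _ hij => by
        rcases lt_or_gt_of_ne hij with h | h
        · exact hdis i j h
        · exact (hdis j i h).symm)
    have h3 := hκ.le K' _ hK' h2.1
    have h4 : κ K' (⋃ i ∈ Finset.range (L + 1), Bl i) = ∑ i ∈ Finset.range (L + 1), κ K' (Bl i) := h2.2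
    rw [h4] at h3
    have h5 : (∑ i ∈ Finset.range (L + 1), κ K' (Bl i)) * m K = ((L : ℝ) + 1) * (κ K B * m K') := by
      rw [Finset.sum_mul, Finset.sum_congr rfl h1]
      simp
    have hp := hm.pos K hK
    have hp' := hm.pos K' hK'
    have h6 : ((L : ℝ) + 1) * (κ K B * m K') ≤ N * m K' * m K := by
      rw [← h5]; exact mul_le_mul_of_nonneg_right h3 hp.le
    have h7 : (((L : ℝ) + 1) * κ K B) * m K' ≤ (N * m K) * m K' := by nlinarith
    exact le_of_mul_le_mul_right h7 hp'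
  have h0 : 0 ≤ κ K B := (hκ.right K hK).nonneg B hB
  by_contra hne
  have hpos : 0 < κ K B := lt_of_le_of_ne h0 (Ne.symm hne)
  obtain ⟨L, hL⟩ := exists_nat_gt (N * m K / κ K B)
  have := key L
  rw [div_lt_iff₀ hpos] at hL
  nlinarith


/-- The local contraction data at `z`. -/
def Rec (z : G) : Prop :=
  ∃ (g a : G) (ℓ : G → ℝ) (c : ℝ), 1 < c ∧ Continuous ℓ ∧ (∀ x, ℓ (a * x * a⁻¹) = c * ℓ x) ∧
    0 < ℓ (g * z * g⁻¹)

theorem exists_nbhd_rec (hκ : Kap κ m N ⊤ ⊤) (hm : Vol m) {z : G} (hz : Rec z) :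
    ∃ O : Set G, IsOpen O ∧ z ∈ O ∧ ∀ (K : Subgroup G) (B : Set G), CO (K : Set G) → CO B →
      (∀ k ∈ K, ∀ b ∈ B, k * b ∈ B) → B ⊆ O → κ K B = 0 := by
  obtain ⟨g, a, ℓ, c, hc, hcont, hℓ, hpos⟩ := hz
  set s : ℝ := 2 * ℓ (g * z * g⁻¹) / (1 + c) with hs
  have hs0 : 0 < s := by positivity
  have hs1 : s < ℓ (g * z * g⁻¹) := by
    rw [hs, div_lt_iff₀ (by linarith)]; nlinarith
  have hs2 : ℓ (g * z * g⁻¹) < c * s := by
    rw [hs, mul_div_assoc', lt_div_iff₀ (by linarith)]; nlinarith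
  refine ⟨{w | s < ℓ (g * w * g⁻¹)} ∩ {w | ℓ (g * w * g⁻¹) < c * s}, ?_, ⟨hs1, hs2⟩, ?_⟩
  · have hc' : Continuous fun w => ℓ (g * w * g⁻¹) := hcont.comp (by fun_prop)
    exact (isOpen_lt continuous_const hc').inter (isOpen_lt hc' continuous_const)
  · intro K B hK hB hKB hBO
    have h1 := hκ.inv g trivial g⁻¹ trivial K B hK hB
    rw [← h1, ← cj_coe]
    refine rec_zero hκ hm (K := cj g K) (by rw [cj_coe]; exact hK.tr _ _) (hB.tr g g⁻¹) ?_ a ℓ hc hℓ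
      hs0 ?_
    · rintro k ⟨k', hk', rfl⟩ b ⟨b', hb', rfl⟩
      refine ⟨k' * b', hKB k' hk' b' hb', ?_⟩
      change g * (k' * b') * g⁻¹ = g * k' * g⁻¹ * (g * b' * g⁻¹)
      group
    · rintro x ⟨y, hy, rfl⟩
      exact hBO hy

theorem kap_top (hbasis : ∀ U ∈ 𝓝 (1 : G), ∃ K : Subgroup G, CO (K : Set G) ∧ (K : Set G) ⊆ U)
    (hκ : Kap κ m N ⊤ ⊤) (hm : Vol m) {C D : Set G} (hC : CO C) (hD : CO D)
    (h : ∀ x ∈ C, ∀ y ∈ D, Rec (x⁻¹ * y)) : κ C D = 0 := by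
  -- uniform neighbourhood
  have hU : ∃ U ∈ 𝓝 (1 : G), ∀ q ∈ C ×ˢ D, (∀ k ∈ U, q.1 * k ∈ C) ∧
      (∀ k ∈ U, q.1 * k * q.1⁻¹ * q.2 ∈ D) ∧
      ∃ O : Set G, (∀ (K : Subgroup G) (B : Set G), CO (K : Set G) → CO B →
      (∀ k ∈ K, ∀ b ∈ B, k * b ∈ B) → B ⊆ O → κ K B = 0) ∧ ∀ k ∈ U, k * (q.1⁻¹ * q.2) ∈ O := by
    refine (hC.1.prod hD.1).induction_on (p := fun S => ∃ U ∈ 𝓝 (1 : G), ∀ q ∈ S,
      (∀ k ∈ U, q.1 * k ∈ C) ∧ (∀ k ∈ U, q.1 * k * q.1⁻¹ * q.2 ∈ D) ∧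
      ∃ O : Set G, (∀ (K : Subgroup G) (B : Set G), CO (K : Set G) → CO B →
      (∀ k ∈ K, ∀ b ∈ B, k * b ∈ B) → B ⊆ O → κ K B = 0) ∧ ∀ k ∈ U, k * (q.1⁻¹ * q.2) ∈ O)
      ⟨univ, univ_mem, by simp⟩ ?_ ?_ ?_
    · rintro S T hST ⟨U, hU, h1⟩
      exact ⟨U, hU, fun q hq => h1 q (hST hq)⟩
    · rintro S T ⟨U, hU, h1⟩ ⟨U', hU', h2⟩
      refine ⟨U ∩ U', inter_mem hU hU', ?_⟩
      rintro q (hq | hq)
      · obtain ⟨a1, a2, O, a3, a4⟩ := h1 q hq
        exact ⟨fun k hk => a1 k hk.1, fun k hk => a2 k hk.1, O, a3, fun k hk => a4 k hk.1⟩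
      · obtain ⟨a1, a2, O, a3, a4⟩ := h2 q hq
        exact ⟨fun k hk => a1 k hk.2, fun k hk => a2 k hk.2, O, a3, fun k hk => a4 k hk.2⟩
    · rintro ⟨x, y⟩ ⟨hx, hy⟩
      obtain ⟨O, hO, hzO, hO'⟩ := exists_nbhd_rec hκ hm (h x hx y hy)
      have e1 : ∀ᶠ p : G × (G × G) in 𝓝 (1, (x, y)), p.2.1 * p.1 ∈ C := by
        have : Continuous fun p : G × (G × G) => p.2.1 * p.1 := by fun_prop
        refine this.continuousAt.eventually_mem ?_
        simpa using hC.2.mem_nhds hx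
      have e2 : ∀ᶠ p : G × (G × G) in 𝓝 (1, (x, y)), p.2.1 * p.1 * p.2.1⁻¹ * p.2.2 ∈ D := by
        have : Continuous fun p : G × (G × G) => p.2.1 * p.1 * p.2.1⁻¹ * p.2.2 := by fun_prop
        refine this.continuousAt.eventually_mem ?_
        simpa using hD.2.mem_nhds hy
      have e3 : ∀ᶠ p : G × (G × G) in 𝓝 (1, (x, y)), p.1 * (p.2.1⁻¹ * p.2.2) ∈ O := by
        have : Continuous fun p : G × (G × G) => p.1 * (p.2.1⁻¹ * p.2.2) := by fun_prop
        refine this.continuousAt.eventually_mem ?_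
        simpa using hO.mem_nhds hzO
      have e := (e1.and (e2.and e3))
      rw [nhds_prod_eq, eventually_prod_iff] at e
      obtain ⟨pa, hpa, pb, hpb, hab⟩ := e
      refine ⟨{q | pb q}, mem_nhdsWithin_of_mem_nhds hpb, {k | pa k}, hpa, ?_⟩
      intro q hq
      exact ⟨fun k hk => (hab hk hq).1, fun k hk => (hab hk hq).2.1, O, hO',
        fun k hk => (hab hk hq).2.2⟩
  obtain ⟨U, hU1, hU2⟩ := hU
  obtain ⟨K, hK, hKU⟩ := hbasis U hU1
  rcases D.eq_empty_or_nonempty with hDe | ⟨y₀, hy₀⟩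
  · subst hDe; exact (hκ.right C hC).empty
  obtain ⟨s, hs, h1, -⟩ := (hκ.left D hD).cosets hK hC
    (fun x hx k hk => (hU2 (x, y₀) ⟨hx, hy₀⟩).1 k (hKU hk))
  have h1' : κ C D = ∑ x ∈ s, κ (tr x 1 (K : Set G)) D := h1
  rw [h1']
  refine Finset.sum_eq_zero fun x hx => ?_
  have hxC := hs x hx
  have h2 := hκ.inv x⁻¹ trivial 1 trivial _ D (hK.tr x 1) hD
  rw [← h2, tr_tr]
  have e0 : tr (x⁻¹ * x) (1 * 1) (K : Set G) = K := by
    rw [inv_mul_cancel, mul_one, tr_one]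
  rw [e0]
  set E : Set G := tr x⁻¹ 1 D with hE
  have hEc : CO E := hD.tr _ _
  -- inverse trick
  have hf : Fadd fun S => κ K S⁻¹ := by
    refine ⟨fun S hS => (hκ.right K hK).nonneg _ hS.inv, fun S T hS hT hST => ?_⟩
    have : (S ∪ T)⁻¹ = S⁻¹ ∪ T⁻¹ := Set.union_inv
    simp only [this]
    refine (hκ.right K hK).add _ _ hS.inv hT.inv ?_
    rw [Set.disjoint_left] at hST ⊢
    intro z hz hz'
    exact hST hz hz'
  have hKE : ∀ k ∈ K, ∀ b ∈ E, k * b ∈ E := by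
    rintro k hk b ⟨y, hy, rfl⟩
    refine ⟨x * k * x⁻¹ * y, (hU2 (x, y) ⟨hxC, hy⟩).2.1 k (hKU hk), ?_⟩
    simp only []
    group
  obtain ⟨t, ht, h3, -⟩ := hf.cosets hK hEc.inv (by
    intro w hw k hk
    rw [Set.mem_inv] at hw ⊢
    rw [mul_inv_rev]
    exact hKE _ (K.inv_mem hk) _ hw)
  simp only [inv_inv] at h3
  rw [h3]
  refine Finset.sum_eq_zero fun w hw => ?_
  have hwE : w⁻¹ ∈ E := ht w hw
  obtain ⟨y, hy, hyw⟩ := hwE
  obtain ⟨O, hO1, hO2⟩ := (hU2 (x, y) ⟨hxC, hy⟩).2.2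
  refine hO1 K _ hK (hK.tr w 1).inv ?_ ?_
  · intro k hk b hb
    rw [Set.mem_inv, mem_tr] at hb ⊢
    have : w⁻¹ * (k * b)⁻¹ * 1⁻¹ = (w⁻¹ * b⁻¹ * 1⁻¹) * k⁻¹ := by group
    rw [this]
    exact K.mul_mem hb (K.inv_mem hk)
  · intro b hb
    rw [Set.mem_inv, mem_tr] at hb
    have h5 := hO2 _ (hKU (K.inv_mem hb))
    have : (w⁻¹ * b⁻¹ * 1⁻¹)⁻¹ * (x⁻¹ * y) = b := by
      have e1 : x⁻¹ * y = w⁻¹ := by simpa using hyw
      rw [e1]; group
    simp only [this] at h5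
    exact h5

end rec

end Vale.Agent.P092.H793
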