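import Vale.Agent.P092.H793.Kap

/-!
P092 (helper793), project B: averaging of finitely additive functions of pairs of compact open sets
over `G / L`, `L` of finite covolume.
-/

open Set Topology Filter MeasureTheory

set_option linter.unusedSectionVars false

namespace Vale.Agent.P092.H793

variable {G : Type*} [Group G] [TopologicalSpace G] [IsTopologicalGroup G] [T2Space G]
  {κ : Set G → Set G → ℝ} {m : Set G → ℝ} {N : ℝ} {L1 L2 : Subgroup G}

/-- `G / L` carries a nonzero finite invariant Borel measure. -/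
def Cov (L : Subgroup G) : Prop :=
  ∃ ν : @Measure (G ⧸ L) (borel (G ⧸ L)), ν ≠ 0 ∧ ν Set.univ < ⊤ ∧
    ∀ g : G, ∀ s : Set (G ⧸ L), MeasurableSet[borel (G ⧸ L)] s →
      ν ((fun x => g • x) ⁻¹' s) = ν s

theorem eventually_tr {C : Set G} (hC : CO C) (h₀ : G) :
    ∀ᶠ h in 𝓝 h₀, tr 1 h C = tr 1 h₀ C := by
  obtain ⟨V, hV, hV'⟩ := compact_open_separated_mul_right hC.1 hC.2 subset_rfl
  have h1 : ∀ᶠ h in 𝓝 h₀, h₀ * h⁻¹ ∈ V := by
    have : Continuous fun h : G => h₀ * h⁻¹ := by fun_prop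
    exact this.continuousAt.eventually_mem (by simpa using hV)
  have h2 : ∀ᶠ h in 𝓝 h₀, h * h₀⁻¹ ∈ V := by
    have : Continuous fun h : G => h * h₀⁻¹ := by fun_prop
    exact this.continuousAt.eventually_mem (by simpa using hV)
  filter_upwards [h1, h2] with h a1 a2
  ext y
  simp only [mem_tr]
  constructor
  · intro hy
    have := hV' (mul_mem_mul hy a2)
    have e : 1⁻¹ * y * h⁻¹ * (h * h₀⁻¹) = 1⁻¹ * y * h₀⁻¹ := by group
    rwa [e] at this
  · intro hy
    have := hV' (mul_mem_mul hy a1)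
    have e : 1⁻¹ * y * h₀⁻¹ * (h₀ * h⁻¹) = 1⁻¹ * y * h⁻¹ := by group
    rwa [e] at this

/-- The function `h ↦ κ (C h, D h)` on `G / L2`. -/
noncomputable def Fb (hκ : Kap κ m N L1 L2) {C D : Set G} (hC : CO C) (hD : CO D) : G ⧸ L2 → ℝ :=
  Quotient.lift (fun h => κ (tr 1 h C) (tr 1 h D)) (by
    intro a b hab
    have hab' : a⁻¹ * b ∈ L2 := by
      rwa [← QuotientGroup.leftRel_apply]
    have := hκ.inv 1 L1.one_mem _ hab' _ _ (hC.tr 1 a) (hD.tr 1 a)
    rw [tr_tr, tr_tr] at this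
    have e : a * (a⁻¹ * b) = b := by group
    rw [e, one_mul] at this
    exact this.symm)

theorem fb_mk (hκ : Kap κ m N L1 L2) {C D : Set G} (hC : CO C) (hD : CO D) (h : G) :
    Fb hκ hC hD (QuotientGroup.mk h) = κ (tr 1 h C) (tr 1 h D) := rfl

theorem fb_cont (hκ : Kap κ m N L1 L2) {C D : Set G} (hC : CO C) (hD : CO D) :
    Continuous (Fb hκ hC hD) := by
  refine continuous_quot_lift _ ?_
  rw [continuous_iff_continuousAt]
  intro h₀
  have : (fun h => κ (tr 1 h C) (tr 1 h D)) =ᶠ[𝓝 h₀] fun _ => κ (tr 1 h₀ C) (tr 1 h₀ D) := by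
    filter_upwards [eventually_tr hC h₀, eventually_tr hD h₀] with h a b
    simp only [a, b]
  exact continuousAt_const.congr this.symm

theorem fb_nonneg (hκ : Kap κ m N L1 L2) {C D : Set G} (hC : CO C) (hD : CO D) (x : G ⧸ L2) :
    0 ≤ Fb hκ hC hD x := by
  induction x using QuotientGroup.induction_on with
  | H h => exact (hκ.right _ (hC.tr 1 h)).nonneg _ (hD.tr 1 h)

theorem fb_le (hκ : Kap κ m N L1 L2) (hm : Vol m) {C D : Set G} (hC : CO C) (hD : CO D)
    (x : G ⧸ L2) : Fb hκ hC hD x ≤ N * m C := by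
  induction x using QuotientGroup.induction_on with
  | H h =>
    have := hκ.le _ _ (hC.tr 1 h) (hD.tr 1 h)
    rwa [hm.inv _ _ _ hC] at this

section avg

variable [MeasurableSpace (G ⧸ L2)] [BorelSpace (G ⧸ L2)] (ν : Measure (G ⧸ L2))

open Classical in
/-- The average of `κ (C h, D h)`. -/
noncomputable def avg (hκ : Kap κ m N L1 L2) (C D : Set G) : ℝ :=
  if h : CO C ∧ CO D then ∫ x, Fb hκ h.1 h.2 x ∂ν else 0

theorem avg_eq (hκ : Kap κ m N L1 L2) {C D : Set G} (hC : CO C) (hD : CO D) :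
    avg ν hκ C D = ∫ x, Fb hκ hC hD x ∂ν := by
  rw [avg, dif_pos ⟨hC, hD⟩]

variable [IsFiniteMeasure ν]

theorem fb_int (hκ : Kap κ m N L1 L2) (hm : Vol m) {C D : Set G} (hC : CO C) (hD : CO D) :
    Integrable (Fb hκ hC hD) ν := by
  refine Integrable.of_bound (fb_cont hκ hC hD).aestronglyMeasurable (N * m C) ?_
  refine ae_of_all _ fun x => ?_
  rw [Real.norm_eq_abs, abs_of_nonneg (fb_nonneg hκ hC hD x)]
  exact fb_le hκ hm hC hD x

theorem avg_kap (hκ : Kap κ m N L1 L2) (hm : Vol m)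
    (hν : ∀ g : G, ∀ s : Set (G ⧸ L2), MeasurableSet s → ν ((fun x => g • x) ⁻¹' s) = ν s) :
    Kap (avg ν hκ) m (N * ν.real univ) L1 ⊤ := by
  refine ⟨fun D hD => ⟨fun C hC => ?_, fun C C' hC hC' hCC => ?_⟩,
    fun C hC => ⟨fun D hD => ?_, fun D D' hD hD' hDD => ?_⟩, fun C D hC hD => ?_, ?_⟩
  · simp only [avg_eq ν hκ hC hD]
    exact integral_nonneg (fb_nonneg hκ hC hD)
  · simp only [avg_eq ν hκ hC hD, avg_eq ν hκ hC' hD, avg_eq ν hκ (hC.union hC') hD]
    rw [← integral_add (fb_int ν hκ hm hC hD) (fb_int ν hκ hm hC' hD)]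
    refine integral_congr_ae (ae_of_all _ fun x => ?_)
    induction x using QuotientGroup.induction_on with
    | H h =>
      simp only [fb_mk, tr_union]
      exact (hκ.left _ (hD.tr 1 h)).add _ _ (hC.tr 1 h) (hC'.tr 1 h) (tr_disjoint hCC)
  · simp only [avg_eq ν hκ hC hD]
    exact integral_nonneg (fb_nonneg hκ hC hD)
  · simp only [avg_eq ν hκ hC hD, avg_eq ν hκ hC hD', avg_eq ν hκ hC (hD.union hD')]
    rw [← integral_add (fb_int ν hκ hm hC hD) (fb_int ν hκ hm hC hD')]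
    refine integral_congr_ae (ae_of_all _ fun x => ?_)
    induction x using QuotientGroup.induction_on with
    | H h =>
      simp only [fb_mk, tr_union]
      exact (hκ.right _ (hC.tr 1 h)).add _ _ (hD.tr 1 h) (hD'.tr 1 h) (tr_disjoint hDD)
  · simp only [avg_eq ν hκ hC hD]
    calc ∫ x, Fb hκ hC hD x ∂ν ≤ ∫ _, N * m C ∂ν :=
          integral_mono (fb_int ν hκ hm hC hD) (integrable_const _) (fb_le hκ hm hC hD)
      _ = N * ν.real univ * m C := by
          rw [integral_const, smul_eq_mul]; ring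
  · intro g hg a _ C D hC hD
    simp only [avg_eq ν hκ hC hD, avg_eq ν hκ (hC.tr g a) (hD.tr g a)]
    have h1 : ∀ x : G ⧸ L2, Fb hκ (hC.tr g a) (hD.tr g a) x = Fb hκ hC hD (a • x) := by
      intro x
      induction x using QuotientGroup.induction_on with
      | H h =>
        have e : (a • (QuotientGroup.mk h : G ⧸ L2)) = QuotientGroup.mk (a * h) := rfl
        rw [e, fb_mk, fb_mk, tr_tr, tr_tr]
        have := hκ.inv g hg 1 L2.one_mem _ _ (hC.tr 1 (a * h)) (hD.tr 1 (a * h))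
        rw [tr_tr, tr_tr] at this
        rw [← this]
        simp only [one_mul, mul_one]
    simp only [h1]
    have hmap : Measure.map (fun x : G ⧸ L2 => a • x) ν = ν := by
      ext s hs
      rw [Measure.map_apply (continuous_const_smul a).measurable hs]
      exact hν a s hs
    conv_rhs => rw [← hmap]
    rw [integral_map (continuous_const_smul a).measurable.aemeasurable]
    rw [hmap]
    exact (fb_cont hκ hC hD).aestronglyMeasurable

theorem avg_zero [SecondCountableTopology G] (hκ : Kap κ m N L1 L2) (hm : Vol m) (hν0 : ν ≠ 0)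
    (hν : ∀ g : G, ∀ s : Set (G ⧸ L2), MeasurableSet s → ν ((fun x => g • x) ⁻¹' s) = ν s)
    {C D : Set G} (hC : CO C) (hD : CO D) (h0 : avg ν hκ C D = 0) : κ C D = 0 := by
  rw [avg_eq ν hκ hC hD, integral_eq_zero_iff_of_nonneg (fb_nonneg hκ hC hD)
    (fb_int ν hκ hm hC hD)] at h0
  by_contra hne
  have hpos : 0 < κ C D := lt_of_le_of_ne ((hκ.right C hC).nonneg D hD) (Ne.symm hne)
  set U : Set (G ⧸ L2) := {x | 0 < Fb hκ hC hD x} with hU
  have hUo : IsOpen U := isOpen_lt continuous_const (fb_cont hκ hC hD)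
  have hU0 : ν U = 0 := by
    rw [Filter.EventuallyEq, ae_iff] at h0
    refine measure_mono_null ?_ h0
    intro x hx
    simp only [Pi.zero_apply, mem_ofPred_eq]
    exact ne_of_gt hx
  have hU1 : (QuotientGroup.mk 1 : G ⧸ L2) ∈ U := by
    rw [hU, mem_ofPred_eq, fb_mk, tr_one, tr_one]; exact hpos
  apply hν0
  rw [← Measure.measure_univ_eq_zero]
  refine measure_null_of_locally_null _ fun x _ => ?_
  obtain ⟨g, rfl⟩ := QuotientGroup.mk_surjective x
  refine ⟨(fun x => g⁻¹ • x) ⁻¹' U, ?_, ?_⟩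
  · refine mem_nhdsWithin_of_mem_nhds ?_
    refine (hUo.preimage (continuous_const_smul g⁻¹)).mem_nhds ?_
    rw [mem_preimage]
    have e : (g⁻¹ • (QuotientGroup.mk g : G ⧸ L2)) = QuotientGroup.mk (g⁻¹ * g) := rfl
    rw [e, inv_mul_cancel]; exact hU1
  · rw [hν g⁻¹ U hUo.measurableSet]; exact hU0

end avg

/-- Averaging on the right. -/
theorem exists_right [SecondCountableTopology G] (hκ : Kap κ m N L1 L2) (hm : Vol m)
    (hL : Cov L2) : ∃ (κ' : Set G → Set G → ℝ) (N' : ℝ), Kap κ' m N' L1 ⊤ ∧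
      ∀ C D, CO C → CO D → κ' C D = 0 → κ C D = 0 := by
  obtain ⟨ν, h0, h1, h2⟩ := hL
  let _ : MeasurableSpace (G ⧸ L2) := borel _
  have : BorelSpace (G ⧸ L2) := ⟨rfl⟩
  have : IsFiniteMeasure ν := ⟨h1⟩
  exact ⟨avg ν hκ, _, avg_kap ν hκ hm h2, fun C D hC hD h => avg_zero ν hκ hm h0 h2 hC hD h⟩

theorem tr_inv (g h : G) (C : Set G) : (tr g h C)⁻¹ = tr h⁻¹ g⁻¹ C⁻¹ := by
  ext y
  simp only [Set.mem_inv, mem_tr]
  have : (h⁻¹⁻¹ * y * g⁻¹⁻¹)⁻¹ = g⁻¹ * y⁻¹ * h⁻¹ := by group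
  rw [this]

theorem inv_disjoint {C D : Set G} (h : Disjoint C D) : Disjoint C⁻¹ D⁻¹ := by
  rw [Set.disjoint_left] at h ⊢
  intro x hx hx'
  exact h hx hx'

theorem Fadd.inv {f : Set G → ℝ} (hf : Fadd f) : Fadd fun C => f C⁻¹ := by
  refine ⟨fun C hC => hf.nonneg _ hC.inv, fun C D hC hD h => ?_⟩
  simp only [Set.union_inv]
  exact hf.add _ _ hC.inv hD.inv (inv_disjoint h)

theorem Vol.op (hm : Vol m) : Vol fun C => m C⁻¹ := by
  refine ⟨hm.fadd.inv, fun g h C hC => ?_, fun K hK => ?_⟩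
  · simp only [tr_inv]
    exact hm.inv _ _ _ hC.inv
  · have : ((K : Set G))⁻¹ = K := by ext x; simp
    simp only [this]
    exact hm.pos K hK

theorem Kap.op (hκ : Kap κ m N L1 L2) : Kap (fun C D => κ C⁻¹ D⁻¹) (fun C => m C⁻¹) N L2 L1 := by
  refine ⟨fun D hD => (hκ.left _ hD.inv).inv, fun C hC => (hκ.right _ hC.inv).inv,
    fun C D hC hD => hκ.le _ _ hC.inv hD.inv, fun g hg h hh C D hC hD => ?_⟩
  simp only [tr_inv]
  exact hκ.inv _ (L1.inv_mem hh) _ (L2.inv_mem hg) _ _ hC.inv hD.inv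

/-- LEMMA K: a finitely additive function of pairs of compact open sets which is invariant under left
and right translation by subgroups of finite covolume and bounded by the volume of the first set
vanishes on the pairs `C, D` such that all elements of `C⁻¹ D` are contracted. -/
theorem kap_zero [SecondCountableTopology G]
    (hbasis : ∀ U ∈ 𝓝 (1 : G), ∃ K : Subgroup G, CO (K : Set G) ∧ (K : Set G) ⊆ U)
    (hκ : Kap κ m N L1 L2) (hm : Vol m) (h1 : Cov L1) (h2 : Cov L2) {C D : Set G} (hC : CO C)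
    (hD : CO D) (h : ∀ x ∈ C, ∀ y ∈ D, Rec (x⁻¹ * y)) : κ C D = 0 := by
  obtain ⟨κ₁, N₁, hκ₁, hz₁⟩ := exists_right hκ hm h2
  obtain ⟨κ₂, N₂, hκ₂, hz₂⟩ := exists_right hκ₁.op hm.op h1
  have hκ₃ := hκ₂.op
  simp only [inv_inv] at hκ₃
  refine hz₁ C D hC hD ?_
  have h3 := hz₂ C⁻¹ D⁻¹ hC.inv hD.inv
  simp only [inv_inv] at h3
  exact h3 (kap_top hbasis hκ₃ hm hC hD h)

end Vale.Agent.P092.H793
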