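import Vale.Agent.P092.SR.Defs

/-!
P092 (helper793), [B-GLUE-FINAL]: the relative ICC property.
-/

open Set Topology Filter

set_option linter.all false

namespace Vale.Agent.P092.H793

theorem rel_icc_abs {Γ H : Type} [Group Γ] [Group H] [TopologicalSpace H] [IsTopologicalGroup H]
    [T2Space H] (p : Γ →* H) (hp : Function.Injective p) (hd : DenseRange p)
    (hc : ∀ g : H, g ≠ 1 → ¬ IsOpen ((Subgroup.centralizer {g} : Subgroup H) : Set H))
    {K : Set H} (hK : K ∈ 𝓝 (1 : H)) {h : Γ} (hh : h ≠ 1) :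
    {y : Γ | ∃ θ : Γ, p θ ∈ K ∧ y = θ * h * θ⁻¹}.Infinite := by
  intro hfin
  have hh1 : p h ≠ 1 := fun e => hh (hp (by rw [e, map_one]))
  apply hc _ hh1
  set S : Set H := (p '' {y : Γ | ∃ θ : Γ, p θ ∈ K ∧ y = θ * h * θ⁻¹}) \ {p h} with hS
  have hSf : S.Finite := (hfin.image _).subset diff_subset
  set U : Set H := interior K ∩ {x | x * p h * x⁻¹ ∈ Sᶜ} with hU
  have hUo : IsOpen U := isOpen_interior.inter
    (hSf.isClosed.isOpen_compl.preimage (f := fun x : H => x * p h * x⁻¹) (by fun_prop))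
  have h1U : (1 : H) ∈ U := by
    refine ⟨mem_interior_iff_mem_nhds.2 hK, ?_⟩
    rw [mem_ofPred_eq]
    simp [hS]
  have hcl : IsClosed {x : H | p h * x = x * p h} := isClosed_eq (by fun_prop) (by fun_prop)
  have key : ∀ x ∈ U, p h * x = x * p h := by
    intro x hx
    have h2 : x ∈ closure (U ∩ range p) := hd.open_subset_closure_inter hUo hx
    refine (closure_minimal ?_ hcl) h2
    rintro _ ⟨⟨hy1, hy2⟩, δ, rfl⟩
    rw [mem_ofPred_eq] at hy2
    have h3 : p δ * p h * (p δ)⁻¹ = p h := by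
      by_contra hne
      refine hy2 ⟨⟨δ * h * δ⁻¹, ⟨δ, interior_subset hy1, rfl⟩, ?_⟩, hne⟩
      rw [map_mul, map_mul, map_inv]
    rw [mul_inv_eq_iff_eq_mul] at h3
    exact h3.symm
  refine Subgroup.isOpen_of_mem_nhds _ (g := 1) ?_
  refine Filter.mem_of_superset (hUo.mem_nhds h1U) fun x hx => ?_
  rw [SetLike.mem_coe, Subgroup.mem_centralizer_singleton_iff]
  exact (key x hx).symm

/-- The relative ICC property at the first place. -/
theorem rel_icc₁ {Γ G₁ G₂ : Type} [Group Γ] [Group G₁] [Group G₂] [TopologicalSpace G₁]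
    [TopologicalSpace G₂] {p₁ : Γ →* G₁} {p₂ : Γ →* G₂} (hI : SR.Irr p₁ p₂) (hG : SR.GoodGrp G₁)
    {K : Subgroup G₁} (hK : IsOpen (K : Set G₁)) {h : Γ} (hh : h ≠ 1) :
    {y : Γ | ∃ θ : Γ, p₁ θ ∈ K ∧ y = θ * h * θ⁻¹}.Infinite := by
  have := hG.top
  have := hG.t2
  exact rel_icc_abs p₁ hI.inj₁ hI.dense₁ hG.cent (hK.mem_nhds K.one_mem) hh

/-- The relative ICC property at the second place. -/
theorem rel_icc₂ {Γ G₁ G₂ : Type} [Group Γ] [Group G₁] [Group G₂] [TopologicalSpace G₁]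
    [TopologicalSpace G₂] {p₁ : Γ →* G₁} {p₂ : Γ →* G₂} (hI : SR.Irr p₁ p₂) (hG : SR.GoodGrp G₂)
    {K : Subgroup G₂} (hK : IsOpen (K : Set G₂)) {h : Γ} (hh : h ≠ 1) :
    {y : Γ | ∃ θ : Γ, p₂ θ ∈ K ∧ y = θ * h * θ⁻¹}.Infinite := by
  have := hG.top
  have := hG.t2
  exact rel_icc_abs p₂ hI.inj₂ hI.dense₂ hG.cent (hK.mem_nhds K.one_mem) hh

end Vale.Agent.P092.H793
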