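import Vale.Agent.P092.SD.Blocks
import Vale.Agent.P092.H793.DomA

/-!
P092, TEAM D (helper793), cross-leg step of helper356 (#5696), part (A): the boundary calculi of the
two legs at the same source point commute. Input: `EFam.dom` for both legs (the same wall element
`w`, the same `π`) and the commutation of the multiplication operators `m₁ S`, `m₂ T`.
-/

set_option linter.all false

open scoped InnerProductSpace ENNReal LinearAlgebra.Projectivization
open Filter Topology ContinuousLinearMap MeasureTheory TopologicalSpace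

namespace Vale.Agent.P092.H793.SameP

open Vale.Agent.P092.SD
open Vale.Agent.P092.RC (Cm TRN Moore)
open Vale.Agent.P092.H793.DomA (Dm)

/-! ### The index filter -/

/-- first `R`, then `T`, then `N` tend to infinity -/
def lf : Filter (ℝ × ℝ × ℕ) :=
  (atTop : Filter ℝ).curry ((atTop : Filter ℝ).curry (atTop : Filter ℕ))

lemma ev_lf {p : ℝ × ℝ × ℕ → Prop} : (∀ᶠ i in lf, p i) ↔
    ∀ᶠ R in (atTop : Filter ℝ), ∀ᶠ T in (atTop : Filter ℝ), ∀ᶠ N in (atTop : Filter ℕ),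
      p (R, T, N) := by
  unfold lf
  rw [Filter.eventually_curry_iff]
  refine Filter.eventually_congr (Eventually.of_forall fun R => ?_)
  rw [Filter.eventually_curry_iff]

instance : lf.NeBot := by
  refine ⟨fun h => ?_⟩
  have h1 : ∀ᶠ i in lf, False := by rw [h]; exact Filter.eventually_bot
  rw [ev_lf] at h1
  obtain ⟨R, hR⟩ := h1.exists
  obtain ⟨T, hT⟩ := hR.exists
  obtain ⟨N, hN⟩ := hT.exists
  exact hN

/-! ### Separation of the attracting points -/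

section sep

variable {k : Type} [NontriviallyNormedField k]

lemma nm_pos (g : G3 k) : 0 < nm g := by
  unfold nm
  rw [norm_pos_iff]
  intro h0
  have h1 : g.1 = 0 := by
    ext i j
    exact congrFun (congrFun h0 i) j
  have h2 := g.2
  rw [h1] at h2
  simp at h2

lemma norm_le_nm (g : G3 k) (i j : Fin 3) : ‖g.1 i j‖ ≤ nm g :=
  (norm_le_pi_norm (g.1 i) j).trans (norm_le_pi_norm (fun i => (g.1 i : Fin 3 → k)) i)

lemma exists_nm (g : G3 k) : ∃ i j, ‖g.1 i j‖ = nm g := by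
  have h1 : ∃ i, ‖(fun j => g.1 i j : Fin 3 → k)‖ = nm g := by
    by_contra hc
    push Not at hc
    have hlt : ∀ i, ‖(fun j => g.1 i j : Fin 3 → k)‖ < nm g := fun i =>
      lt_of_le_of_ne (norm_le_pi_norm (fun i => (g.1 i : Fin 3 → k)) i) (hc i)
    have := (pi_norm_lt_iff (nm_pos g) (x := fun i j => g.1 i j)).2 hlt
    exact lt_irrefl _ this
  obtain ⟨i, hi⟩ := h1
  have hpos : 0 < nm g := nm_pos g
  have h2 : ∃ j, ‖g.1 i j‖ = nm g := by
    by_contra hc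
    push Not at hc
    have hlt : ∀ j, ‖g.1 i j‖ < nm g := fun j => lt_of_le_of_ne (norm_le_nm g i j) (hc j)
    have := (pi_norm_lt_iff hpos (x := fun j => g.1 i j)).2 hlt
    rw [hi] at this
    exact lt_irrefl _ this
  obtain ⟨j, hj⟩ := h2
  exact ⟨i, j, hj⟩

/-- the vectors in a spherical shell whose class is in `A` -/
def sh (A : Set (PP k)) : Set (Fin 3 → k) :=
  {y | 1 / 2 ≤ ‖y‖ ∧ ‖y‖ ≤ 2 ∧ ∃ hy : y ≠ 0, pt k y hy ∈ A}

lemma sh_compact [ProperSpace k] {A : Set (PP k)} (hA : IsClosed A) : IsCompact (sh A) := by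
  have h0 : IsCompact {y : Fin 3 → k | 1 / 2 ≤ ‖y‖ ∧ ‖y‖ ≤ 2} := by
    refine (isCompact_closedBall (0 : Fin 3 → k) 2).of_isClosed_subset ?_ ?_
    · exact (isClosed_le continuous_const continuous_norm).inter
        (isClosed_le continuous_norm continuous_const)
    · intro y hy
      rw [mem_closedBall_zero_iff]
      exact hy.2
  have h1 : IsCompact (Subtype.val ⁻¹' {y : Fin 3 → k | 1 / 2 ≤ ‖y‖ ∧ ‖y‖ ≤ 2} :
      Set {v : Fin 3 → k // v ≠ 0}) := by
    rw [Subtype.isCompact_iff]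
    convert h0 using 1
    ext y
    simp only [Set.mem_image, Set.mem_preimage, Subtype.exists, exists_and_left, exists_prop,
      Set.mem_setOf_eq]
    constructor
    · rintro ⟨z, hz, -, rfl⟩
      exact hz
    · intro hy
      refine ⟨y, hy, ?_, rfl⟩
      intro h
      rw [h, norm_zero] at hy
      linarith [hy.1]
  have h2 : IsClosed (H820.pj k (Fin 3) ⁻¹' A) := hA.preimage H820.pj_continuous
  have h3 := (h1.inter_right h2).image continuous_subtype_val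
  convert h3 using 1
  ext y
  constructor
  · rintro ⟨a, b, hy, hyA⟩
    exact ⟨⟨y, hy⟩, ⟨⟨a, b⟩, hyA⟩, rfl⟩
  · rintro ⟨⟨z, hz⟩, ⟨⟨a, b⟩, hA'⟩, rfl⟩
    exact ⟨a, b, hz, hA'⟩

/-- the normalised column of `g` -/
lemma att_col {T : ℝ} (hT : 2 ≤ T) {A : Set (PP k)} {g : G3 k} {i₀ j₀ : Fin 3}
    (h0 : ‖g.1 i₀ j₀‖ = nm g) (h : Att T A g) :
    ∃ y ∈ sh A, ‖(fun i => (g.1 i₀ j₀)⁻¹ * g.1 i j₀) - y‖ ≤ 1 / T := by
  obtain ⟨v, φ, hv, hvA, hle⟩ := h
  have hT0 : 0 < T := by linarith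
  have hn := nm_pos g
  set a := g.1 i₀ j₀ with ha
  have ha0 : a ≠ 0 := by
    rw [← norm_pos_iff, h0]; exact hn
  set c : k := a⁻¹ * φ j₀ with hc
  set x : Fin 3 → k := fun i => a⁻¹ * g.1 i j₀ with hx
  have hxy : ‖x - c • v‖ ≤ 1 / T := by
    rw [pi_norm_le_iff_of_nonneg (by positivity)]
    intro i
    have : (x - c • v) i = a⁻¹ * (g.1 i j₀ - v i * φ j₀) := by
      simp only [hx, hc, Pi.sub_apply, Pi.smul_apply, smul_eq_mul]
      ring
    rw [this, norm_mul, norm_inv, h0]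
    have := hle i j₀
    rw [inv_mul_le_iff₀ hn]
    calc _ ≤ nm g / T := this
      _ = nm g * (1 / T) := by ring
  have hx1 : ‖x‖ = 1 := by
    apply le_antisymm
    · rw [pi_norm_le_iff_of_nonneg zero_le_one]
      intro i
      simp only [hx]
      rw [norm_mul, norm_inv, h0, inv_mul_le_iff₀ hn, mul_one]
      exact norm_le_nm g i j₀
    · have := norm_le_pi_norm x i₀
      have e : x i₀ = 1 := by
        simp only [hx]
        exact inv_mul_cancel₀ ha0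
      rw [e, norm_one] at this
      exact this
  have hT2 : 1 / T ≤ 1 / 2 := one_div_le_one_div_of_le (by norm_num) hT
  have hy1 : 1 / 2 ≤ ‖c • v‖ := by
    have := norm_sub_norm_le x (c • v)
    rw [hx1] at this
    linarith
  have hy2 : ‖c • v‖ ≤ 2 := by
    have h1 : ‖c • v‖ ≤ ‖x‖ + ‖x - c • v‖ := by
      have := norm_sub_le x (x - c • v)
      rwa [sub_sub_cancel] at this
    rw [hx1] at h1
    linarith
  have hy0 : c • v ≠ 0 := by
    intro h
    rw [h, norm_zero] at hy1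
    linarith
  have hc0 : c ≠ 0 := by
    intro h
    exact hy0 (by rw [h, zero_smul])
  refine ⟨c • v, ⟨hy1, hy2, hy0, ?_⟩, hxy⟩
  have e : pt k (c • v) hy0 = pt k v hv := by
    unfold pt
    rw [Projectivization.mk_eq_mk_iff]
    exact ⟨Units.mk0 c hc0, rfl⟩
  rw [e]
  exact hvA

/-- for `T` large, the attracting point is not in two separated sets -/
theorem att_sep [ProperSpace k] {A B : Set (PP k)} (h : Disjoint (closure A) (closure B)) :
    ∃ T₀ : ℝ, ∀ T ≥ T₀, ∀ g : G3 k, Att T A g → Att T B g → False := by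
  have hA := sh_compact (isClosed_closure (s := A))
  have hB := sh_compact (isClosed_closure (s := B))
  have hd : Disjoint (sh (closure A)) (sh (closure B)) := by
    refine Set.disjoint_left.2 ?_
    rintro y ⟨-, -, h1, h2⟩ ⟨-, -, h3, h4⟩
    exact Set.disjoint_left.1 h h2 h4
  obtain ⟨δ, hδ, hth⟩ := hd.exists_thickenings hA hB.isClosed
  refine ⟨max 2 (2 / δ), fun T hT g hgA hgB => ?_⟩
  have hT2 : 2 ≤ T := (le_max_left _ _).trans hT
  have hT3 : 2 / δ ≤ T := (le_max_right _ _).trans hT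
  have hT0 : 0 < T := by linarith
  obtain ⟨i₀, j₀, h0⟩ := exists_nm g
  have hmono : ∀ {C : Set (PP k)}, Att T C g → Att T (closure C) g := by
    rintro C ⟨v, φ, hv, hC, hle⟩
    exact ⟨v, φ, hv, subset_closure hC, hle⟩
  obtain ⟨y, hy, hxy⟩ := att_col hT2 h0 (hmono hgA)
  obtain ⟨z, hz, hxz⟩ := att_col hT2 h0 (hmono hgB)
  set x : Fin 3 → k := fun i => (g.1 i₀ j₀)⁻¹ * g.1 i j₀ with hx
  have hlt : 1 / T < δ := by
    have : 2 / T ≤ δ := by
      rw [div_le_iff₀ hT0]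
      rw [div_le_iff₀ hδ] at hT3
      linarith
    have h5 : 0 < 1 / T := by positivity
    have h6 : 2 / T = 1 / T + 1 / T := by ring
    linarith
  have m1 : x ∈ Metric.thickening δ (sh (closure A)) :=
    Metric.mem_thickening_iff.2 ⟨y, hy, by rw [dist_eq_norm]; exact hxy.trans_lt hlt⟩
  have m2 : x ∈ Metric.thickening δ (sh (closure B)) :=
    Metric.mem_thickening_iff.2 ⟨z, hz, by rw [dist_eq_norm]; exact hxz.trans_lt hlt⟩
  exact Set.disjoint_left.1 hth m1 m2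

end sep

/-! ### The multiplication operators -/

section ms

variable {Γ K : Type} [Group Γ] [NormedAddCommGroup K] [InnerProductSpace ℂ K] [CompleteSpace K]
  {lam : Γ →* (K →L[ℂ] K)} {W : Set (K →L[ℂ] K)} {Ω : K} {m : Set Γ → (K →L[ℂ] K)}

lemma ms_empty (hm : Ms lam W Ω m) : m ∅ = 0 := by
  have h1 := hm.inf ∅ ∅ᶜ
  rw [Set.empty_inter, hm.compl, mul_sub, mul_one, ← hm.inf, Set.inter_self, sub_self] at h1
  exact h1

lemma ms_idem (hm : Ms lam W Ω m) (S : Set Γ) : m S * m S = m S := by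
  rw [← hm.inf, Set.inter_self]

lemma ms_disj (hm : Ms lam W Ω m) {S T : Set Γ} (h : S ∩ T = ∅) : m S * m T = 0 := by
  rw [← hm.inf, h, ms_empty hm]

lemma ms_mono (hm : Ms lam W Ω m) {S T : Set Γ} (h : S ⊆ T) (ξ : K) : ‖m S ξ‖ ≤ ‖m T ξ‖ := by
  have e : m S ξ = m S (m T ξ) := by
    have : m S = m S * m T := by rw [← hm.inf, Set.inter_eq_left.2 h]
    conv_lhs => rw [this]
    rfl
  rw [e]
  exact DomA.norm_ap (hm.adj S) (ms_idem hm S) _

/-- Operators commuting with the multiplication operators of the points commute with all. -/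
theorem ms_all (hm : Ms lam W Ω m) {T : K →L[ℂ] K} (h : ∀ γ, Commute T (m {γ})) (S : Set Γ) :
    Commute T (m S) := by
  classical
  -- finite sets
  have hadd : ∀ A B : Set Γ, Disjoint A B → m (A ∪ B) = m A + m B := by
    intro A B hAB
    have h1 : m (A ∪ B) * m A = m A := by
      rw [← hm.inf, Set.inter_eq_right.2 Set.subset_union_left]
    have h2 : m (A ∪ B) * m Aᶜ = m B := by
      rw [← hm.inf]
      congr 1
      ext x
      simp only [Set.mem_inter_iff, Set.mem_union, Set.mem_compl_iff]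
      constructor
      · rintro ⟨h1 | h1, h2⟩
        · exact absurd h1 h2
        · exact h1
      · intro hx
        exact ⟨Or.inr hx, fun hA => Set.disjoint_left.1 hAB hA hx⟩
    rw [hm.compl, mul_sub, mul_one, h1] at h2
    rw [← h2]
    abel
  have hfin : ∀ F : Finset Γ, Commute T (m (F : Set Γ)) := by
    intro F
    induction F using Finset.induction_on with
    | empty =>
      rw [Finset.coe_empty, ms_empty hm]
      exact Commute.zero_right _
    | insert a F ha ih =>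
      rw [Finset.coe_insert, Set.insert_eq, hadd _ _ (by simpa using ha)]
      exact (h a).add_right ih
  show T * m S = m S * T
  ext ξ
  rw [← sub_eq_zero, ← norm_le_zero_iff]
  refine le_of_forall_pos_le_add fun ε hε => ?_
  have hε' : 0 < ε / (2 * (‖T‖ + 1)) := by positivity
  obtain ⟨F₁, hF₁⟩ := hm.fin ξ _ hε'
  obtain ⟨F₂, hF₂⟩ := hm.fin (T ξ) _ (by positivity : (0 : ℝ) < ε / 2)
  set F := F₁ ∪ F₂ with hF
  set F' : Finset Γ := F.filter fun x => x ∈ S with hF'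
  have hSF : S ∩ (F : Set Γ) = (F' : Set Γ) := by
    ext x
    simp [hF', and_comm]
  -- decomposition
  have dec : ∀ η, m S η = m (F' : Set Γ) η + m S (m ((F : Set Γ))ᶜ η) := by
    intro η
    have e1 : m S = m (F' : Set Γ) + m S * m ((F : Set Γ))ᶜ := by
      rw [hm.compl, mul_sub, mul_one, ← hm.inf, hSF]
      abel
    conv_lhs => rw [e1]
    rfl
  have small : ∀ η, ‖m S (m ((F : Set Γ))ᶜ η)‖ ≤ ‖m ((F : Set Γ))ᶜ η‖ := fun η =>
    DomA.norm_ap (hm.adj S) (ms_idem hm S) _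
  have b1 : ‖m ((F : Set Γ))ᶜ ξ‖ ≤ ε / (2 * (‖T‖ + 1)) :=
    (ms_mono hm (Set.compl_subset_compl.2 (by rw [hF]; push_cast; exact Set.subset_union_left))
      ξ).trans hF₁
  have b2 : ‖m ((F : Set Γ))ᶜ (T ξ)‖ ≤ ε / 2 :=
    (ms_mono hm (Set.compl_subset_compl.2 (by rw [hF]; push_cast; exact Set.subset_union_right))
      (T ξ)).trans hF₂
  have e : (T * m S) ξ - (m S * T) ξ = T (m S (m ((F : Set Γ))ᶜ ξ)) -
      m S (m ((F : Set Γ))ᶜ (T ξ)) := by
    have hc := congrArg (fun A : K →L[ℂ] K => A ξ) (hfin F').eq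
    simp only [H218.mul_ap] at hc ⊢
    rw [dec ξ, dec (T ξ), map_add, hc]
    abel
  rw [e, zero_add]
  calc _ ≤ ‖T (m S (m ((F : Set Γ))ᶜ ξ))‖ + ‖m S (m ((F : Set Γ))ᶜ (T ξ))‖ := norm_sub_le _ _
    _ ≤ ‖T‖ * (ε / (2 * (‖T‖ + 1))) + ε / 2 := by
        refine add_le_add ?_ ((small _).trans b2)
        exact (le_opNorm _ _).trans (mul_le_mul_of_nonneg_left ((small _).trans b1)
          (norm_nonneg _))
    _ ≤ ε / 2 + ε / 2 := by
        refine add_le_add ?_ le_rfl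
        have : ‖T‖ * (ε / (2 * (‖T‖ + 1))) = (‖T‖ / (‖T‖ + 1)) * (ε / 2) := by
          field_simp
        rw [this]
        have h3 : ‖T‖ / (‖T‖ + 1) ≤ 1 := by
          rw [div_le_one (by positivity)]
          linarith
        calc _ ≤ 1 * (ε / 2) := mul_le_mul_of_nonneg_right h3 (by positivity)
          _ = _ := one_mul _
    _ = ε := by ring

end ms

/-! ### The cut-offs of one leg -/

section main

variable {k : Type} [NontriviallyNormedField k] [ProperSpace k] {Γ K : Type}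
  [Group Γ] [NormedAddCommGroup K] [InnerProductSpace ℂ K] [CompleteSpace K]

/-- the cut-off at the time `N` -/
noncomputable def cut (w : kˣ) (π : G3 k →* (K →L[ℂ] K)) (m : Set Γ → (K →L[ℂ] K))
    (q : Γ →* G3 k) (g : G3 k) (i : ℝ × ℝ × ℕ) (A : Set (PP k)) : K →L[ℂ] K :=
  π (g * bw w ^ i.2.2 * g⁻¹) * m {γ | NW i.1 (q γ) ∧ Att i.2.1 A (q γ)} *
    π (g * bw w ^ i.2.2 * g⁻¹)⁻¹

section

variable {π : G3 k →* (K →L[ℂ] K)} (hadj : ∀ g, adjoint (π g) = π g⁻¹)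

include hadj

lemma pi_norm_eq (g : G3 k) (ξ : K) : ‖π g ξ‖ = ‖ξ‖ := by
  have h1 : ⟪π g ξ, π g ξ⟫_ℂ = ⟪ξ, ξ⟫_ℂ := by
    rw [← adjoint_inner_left, hadj]
    have : π g⁻¹ (π g ξ) = ξ := by
      rw [← H218.mul_ap, ← map_mul, inv_mul_cancel, map_one]
      rfl
    rw [this]
  rw [inner_self_eq_norm_sq_to_K, inner_self_eq_norm_sq_to_K] at h1
  have h2 : ‖π g ξ‖ ^ 2 = ‖ξ‖ ^ 2 := by exact_mod_cast h1
  exact (sq_eq_sq₀ (norm_nonneg _) (norm_nonneg _)).1 h2

/-- one leg -/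
theorem dm {lam : Γ →* (K →L[ℂ] K)} {W : Set (K →L[ℂ] K)} {Ω : K} {m : Set Γ → (K →L[ℂ] K)}
    {w : kˣ} {q : Γ →* G3 k} {E : PP k → (CP k →⋆ₐ[ℂ] (K →L[ℂ] K))} (hm : Ms lam W Ω m)
    (e : EFam w π lam W m q E) (g : G3 k) : Dm lf (E (g • ept k 0)) (cut w π m q g) := by
  have hinv : ∀ h : G3 k, π h⁻¹ * π h = 1 := fun h => by
    rw [← map_mul, inv_mul_cancel, map_one]
  have hcc : ∀ (h : G3 k) (A B : K →L[ℂ] K),
      π h * A * π h⁻¹ * (π h * B * π h⁻¹) = π h * (A * B) * π h⁻¹ := by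
    intro h A B
    calc _ = π h * A * (π h⁻¹ * π h) * B * π h⁻¹ := by simp only [mul_assoc]
      _ = _ := by rw [hinv]; simp only [mul_one, mul_assoc]
  refine ⟨fun i A => ?_, fun i A => ?_, fun A B hAB => ?_, fun u A hA hu ζ ε hε => ?_⟩
  · unfold cut
    have h1 : ∀ T : K →L[ℂ] K, adjoint T = star T := fun T => rfl
    rw [h1, star_mul, star_mul, ← h1, ← h1, ← h1, hadj, hadj, hm.adj, inv_inv]
    simp only [mul_assoc]
  · unfold cut
    rw [hcc, ms_idem hm]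
  · obtain ⟨T₀, hT₀⟩ := att_sep hAB
    rw [ev_lf]
    refine Eventually.of_forall fun R => ?_
    filter_upwards [eventually_ge_atTop T₀] with T hT
    refine Eventually.of_forall fun N => ?_
    unfold cut
    rw [hcc, ms_disj hm, mul_zero, zero_mul]
    ext γ
    simp only [Set.mem_inter_iff, Set.mem_setOf_eq, Set.mem_empty_iff_false, iff_false]
    rintro ⟨⟨-, h1⟩, -, h2⟩
    exact hT₀ T hT _ h1 h2
  · obtain ⟨R, hR⟩ := e.dom g u A hA hu ζ ε hε
    rw [ev_lf]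
    filter_upwards [eventually_ge_atTop R] with R' hR'
    filter_upwards [eventually_gt_atTop (0 : ℝ)] with T hT
    filter_upwards [hR T hT] with N hN
    refine hN.trans ?_
    have h1 : ‖cut w π m q g (R', T, N) A ζ‖ =
        ‖m {γ | NW R' (q γ) ∧ Att T A (q γ)} (π (g * bw w ^ N * g⁻¹)⁻¹ ζ)‖ := by
      unfold cut
      rw [H218.mul_ap, H218.mul_ap, pi_norm_eq hadj]
    rw [h1]
    have h2 : ‖m {γ | NW R (q γ) ∧ Att T A (q γ)} (π (g * bw w ^ N * g⁻¹)⁻¹ ζ)‖ ≤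
        ‖m {γ | NW R' (q γ) ∧ Att T A (q γ)} (π (g * bw w ^ N * g⁻¹)⁻¹ ζ)‖ := by
      refine ms_mono hm ?_ _
      rintro γ ⟨h3, h4⟩
      refine ⟨?_, h4⟩
      unfold NW at h3 ⊢
      exact h3.trans (mul_le_mul_of_nonneg_right hR' (nm_pos _).le)
    have h3 := mul_le_mul_of_nonneg_left h2 (norm_nonneg u)
    linarith

end

lemma orbit (a : PP k) : ∃ g : G3 k, g • ept k 0 = a := by
  by_cases hab : ept k 0 = a
  · exact ⟨1, by rw [one_smul, hab]⟩
  · obtain ⟨g, h1, _⟩ := MulAction.is_two_pretransitive_iff.1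
      (inferInstance : MulAction.IsMultiplyPretransitive (G3 k) (PP k) 2) hab (Ne.symm hab)
    exact ⟨g, h1⟩

/-- **(A) of #5696**: the calculi of the two legs at the same source point commute. -/
theorem same_of {Γ' : Type} [Group Γ'] {π : G3 k →* (K →L[ℂ] K)}
    (hadj : ∀ g, adjoint (π g) = π g⁻¹) {lam₁ : Γ →* (K →L[ℂ] K)} {lam₂ : Γ' →* (K →L[ℂ] K)}
    {W₁ W₂ : Set (K →L[ℂ] K)} {Ω Ω' : K} {m₁ : Set Γ → (K →L[ℂ] K)} {m₂ : Set Γ' → (K →L[ℂ] K)}
    {w : kˣ} {q₁ : Γ →* G3 k} {q₂ : Γ' →* G3 k} {E₁ E₂ : PP k → (CP k →⋆ₐ[ℂ] (K →L[ℂ] K))}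
    (hm₁ : Ms lam₁ W₁ Ω m₁) (hm₂ : Ms lam₂ W₂ Ω' m₂) (hc : ∀ S T, Commute (m₁ S) (m₂ T))
    (e₁ : EFam w π lam₁ W₁ m₁ q₁ E₁) (e₂ : EFam w π lam₂ W₂ m₂ q₂ E₂) (a : PP k) (f g : CP k) :
    Commute (E₁ a f) (E₂ a g) := by
  obtain ⟨h, rfl⟩ := orbit a
  refine DomA.comm (dm hadj hm₁ e₁ h) (dm hadj hm₂ e₂ h) (fun i A B => ?_) f g
  have hinv : π (h * bw w ^ i.2.2 * h⁻¹)⁻¹ * π (h * bw w ^ i.2.2 * h⁻¹) = 1 := by
    rw [← map_mul, inv_mul_cancel, map_one]
  unfold cut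
  set P := π (h * bw w ^ i.2.2 * h⁻¹)
  set P' := π (h * bw w ^ i.2.2 * h⁻¹)⁻¹
  set A' := m₁ {γ | NW i.1 (q₁ γ) ∧ Att i.2.1 A (q₁ γ)}
  set B' := m₂ {γ | NW i.1 (q₂ γ) ∧ Att i.2.1 B (q₂ γ)}
  have h1 : A' * B' = B' * A' := (hc _ _).eq
  show P * A' * P' * (P * B' * P') = P * B' * P' * (P * A' * P')
  calc P * A' * P' * (P * B' * P') = P * A' * (P' * P) * B' * P' := by simp only [mul_assoc]
    _ = P * (A' * B') * P' := by rw [hinv]; simp only [mul_one, mul_assoc]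
    _ = P * (B' * A') * P' := by rw [h1]
    _ = P * B' * (P' * P) * A' * P' := by rw [hinv]; simp only [mul_one, mul_assoc]
    _ = _ := by simp only [mul_assoc]

/-- The multiplication operators of the two legs commute. -/
theorem ms_comm {Γ' : Type} [Group Γ'] {lam₁ : Γ →* (K →L[ℂ] K)} {lam₂ : Γ' →* (K →L[ℂ] K)}
    {X : Set (K →L[ℂ] K)} {Ω : K} {m₁ : Set Γ → (K →L[ℂ] K)} {m₂ : Set Γ' → (K →L[ℂ] K)}
    (hX : ∀ x ∈ X, adjoint x ∈ X) (hl : ∀ s, adjoint (lam₂ s) = lam₂ s⁻¹)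
    (hm₁ : Ms lam₁ (X ∪ Set.range lam₂) Ω m₁) (hm₂ : Ms lam₂ (X ∪ Set.range lam₁) Ω m₂)
    (S : Set Γ) (T : Set Γ') : Commute (m₁ S) (m₂ T) := by
  -- the invariant closed subspace
  have hΩ₂ : ∀ T : Set Γ', m₁ {1} (m₂ T Ω) = m₂ T Ω := by
    intro T
    have e : m₂ T Ω = m₂ (T ∩ {1}) Ω := by
      rw [hm₂.inf, H218.mul_ap, hm₂.om]
    by_cases h1 : (1 : Γ') ∈ T
    · rw [e, Set.inter_eq_right.2 (Set.singleton_subset_iff.2 h1), hm₂.om, hm₁.om]
    · rw [e, Set.inter_singleton_eq_empty.2 h1, ms_empty hm₂]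
      simp
  set p : (K →L[ℂ] K) → Prop := fun w => ∀ ξ : K, (∀ T, m₁ {1} (m₂ T ξ) = m₂ T ξ) →
    ∀ T, m₁ {1} (m₂ T (w ξ)) = m₂ T (w ξ) with hp
  have pX : ∀ x ∈ X, p x := by
    intro x hx ξ hξ T
    have c2 : m₂ T (x ξ) = x (m₂ T ξ) := by
      have := congrArg (fun A : K →L[ℂ] K => A ξ) (hm₂.cm T x (Or.inl hx))
      simpa [H218.mul_ap] using this
    have c1 : ∀ η, m₁ {1} (x η) = x (m₁ {1} η) := fun η => by
      have := congrArg (fun A : K →L[ℂ] K => A η) (hm₁.cm {1} x (Or.inl hx))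
      simpa [H218.mul_ap] using this
    rw [c2, c1, hξ T]
  have pL : ∀ s, p (lam₂ s) := by
    intro s ξ hξ T
    have c1 : ∀ η, m₁ {1} (lam₂ s η) = lam₂ s (m₁ {1} η) := fun η => by
      have := congrArg (fun A : K →L[ℂ] K => A η) (hm₁.cm {1} (lam₂ s) (Or.inr ⟨s, rfl⟩))
      simpa [H218.mul_ap] using this
    have c2 : m₂ T (lam₂ s ξ) = lam₂ s (m₂ ((fun x => s⁻¹ * x) '' T) ξ) := by
      have h1 := hm₂.cov s ((fun x => s⁻¹ * x) '' T)
      have h2 : (fun x => s * x) '' ((fun x => s⁻¹ * x) '' T) = T := by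
        rw [Set.image_image]
        simp
      rw [h2] at h1
      rw [← h1, H218.mul_ap, H218.mul_ap, ← H218.mul_ap (lam₂ s⁻¹) (lam₂ s), ← map_mul,
        inv_mul_cancel, map_one]
      rfl
    rw [c2, c1, hξ]
  have hadd : ∀ x y, p x → p y → p (x + y) := by
    intro x y hx hy ξ hξ T
    rw [add_apply, map_add, map_add, hx ξ hξ T, hy ξ hξ T]
  have hmul : ∀ x y, p x → p y → p (x * y) := by
    intro x y hx hy ξ hξ T
    rw [H218.mul_ap]
    exact hx _ (fun T' => hy ξ hξ T') T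
  have halg : ∀ r : ℂ, p (algebraMap ℂ (K →L[ℂ] K) r) := by
    intro r ξ hξ T
    rw [Algebra.algebraMap_eq_smul_one]
    rw [smul_apply, H218.one_ap, map_smul, map_smul, hξ T]
  have main : ∀ x ∈ StarAlgebra.adjoin ℂ (X ∪ Set.range lam₂), p x ∧ p (star x) := by
    intro x hx
    induction hx using StarAlgebra.adjoin_induction with
    | mem x hx =>
      rcases hx with hx | ⟨s, rfl⟩
      · exact ⟨pX x hx, pX _ (hX x hx)⟩
      · refine ⟨pL s, ?_⟩
        have : star (lam₂ s) = lam₂ s⁻¹ := hl s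
        rw [this]
        exact pL _
    | algebraMap r =>
      refine ⟨halg r, ?_⟩
      have : star (algebraMap ℂ (K →L[ℂ] K) r) = algebraMap ℂ (K →L[ℂ] K) (star r) :=
        (algebraMap_star_comm r).symm
      rw [this]
      exact halg _
    | add x y _ _ hx hy =>
      exact ⟨hadd _ _ hx.1 hy.1, by rw [star_add]; exact hadd _ _ hx.2 hy.2⟩
    | mul x y _ _ hx hy =>
      exact ⟨hmul _ _ hx.1 hy.1, by rw [star_mul]; exact hmul _ _ hy.2 hx.2⟩
    | star x _ hx =>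
      exact ⟨hx.2, by rw [star_star]; exact hx.1⟩
  have hsub : ∀ ξ, m₁ {1} ξ = ξ → ∀ T, m₁ {1} (m₂ T ξ) = m₂ T ξ := by
    intro ξ hξ T
    have hcl : IsClosed {ξ : K | m₁ {1} (m₂ T ξ) = m₂ T ξ} :=
      isClosed_eq (by fun_prop) (by fun_prop)
    refine closure_minimal ?_ hcl (hm₁.cyc ξ hξ)
    intro η hη
    refine Submodule.span_induction ?_ ?_ ?_ ?_ hη
    · rintro _ ⟨x, hx, rfl⟩
      exact (main x hx).1 Ω hΩ₂ T
    · simp
    · intro a b _ _ ha hb
      simp only [Set.mem_setOf_eq, map_add] at ha hb ⊢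
      rw [ha, hb]
    · intro r a _ ha
      simp only [Set.mem_setOf_eq, map_smul] at ha ⊢
      rw [ha]
  -- the points
  have h1 : ∀ T, Commute (m₁ {1}) (m₂ T) := by
    intro T
    have e1 : m₁ {1} * m₂ T * m₁ {1} = m₂ T * m₁ {1} := by
      ext ξ
      simp only [H218.mul_ap]
      exact hsub _ (by rw [← H218.mul_ap, ms_idem hm₁]) T
    have s1 : star (m₁ {1}) = m₁ {1} := hm₁.adj _
    have s2 : star (m₂ T) = m₂ T := hm₂.adj _
    have e2 := congrArg star e1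
    rw [star_mul, star_mul, star_mul, s1, s2, ← mul_assoc] at e2
    exact e2.symm.trans e1
  have h2 : ∀ γ T, Commute (m₁ {γ}) (m₂ T) := by
    intro γ T
    have e : m₁ {γ} = lam₁ γ * m₁ {1} * lam₁ γ⁻¹ := by
      rw [hm₁.cov, Set.image_singleton, mul_one]
    have c : ∀ γ, Commute (lam₁ γ) (m₂ T) := fun γ =>
      (show m₂ T * lam₁ γ = lam₁ γ * m₂ T from hm₂.cm T _ (Or.inr ⟨γ, rfl⟩)).symm
    rw [e]
    exact ((c γ).mul_left (h1 T)).mul_left (c γ⁻¹)
  exact (ms_all hm₁ (T := m₂ T) (fun γ => (h2 γ T).symm) S).symm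

/-- **(A) for points and for lines**, from the legs. -/
theorem same_legs [MeasurableSpace k] {μ : Measure k} {π : G3 k →* (K →L[ℂ] K)}
    {lam₁ lam₂ : Γ →* (K →L[ℂ] K)} {X : Set (K →L[ℂ] K)} {Ω : K} {m₁ m₂ : Set Γ → (K →L[ℂ] K)}
    {w : kˣ} {q₁ q₂ : Γ →* G3 k} {E₁ F₁ E₂ F₂ : PP k → (CP k →⋆ₐ[ℂ] (K →L[ℂ] K))}
    (hX : ∀ x ∈ X, adjoint x ∈ X)
    (h₁ : LegS μ w π lam₁ (X ∪ Set.range lam₂) Ω m₁ q₁ E₁ F₁)
    (h₂ : LegS μ w π lam₂ (X ∪ Set.range lam₁) Ω m₂ q₂ E₂ F₂) :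
    (∀ a f g, Commute (E₁ a f) (E₂ a g)) ∧ ∀ l f g, Commute (F₁ l f) (F₂ l g) := by
  have hc : ∀ S T, Commute (m₁ S) (m₂ T) := ms_comm hX h₂.pic.adjL h₁.ms h₂.ms
  refine ⟨fun a f g => same_of h₁.pic.adjP h₁.ms h₂.ms hc h₁.e h₂.e a f g, fun l f g => ?_⟩
  refine same_of (π := π.comp (tau k)) (fun g => ?_) h₁.ms h₂.ms hc h₁.f h₂.f l f g
  rw [MonoidHom.comp_apply, MonoidHom.comp_apply, map_inv, h₁.pic.adjP]

end main

end Vale.Agent.P092.H793.SameP
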